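import Vale.Agent.P298.H39.Fam

/-!
# P298, S1-GEO-R3: components by type of an alternating real-bilinear form on `ℂ²`
-/

open scoped ContDiff Topology Manifold ComplexConjugate
open Vale.Agent.P272.K Vale.Agent.P298.H39

noncomputable section

namespace Vale.Agent.P298.H723

/-- evaluation on `(e_i + ε i e_i)/2`, `(e_j + δ i e_j)/2` -/
def Ev (ε δ : ℂ) (i j : Fin 2) : BF →L[ℝ] ℂ :=
  let ap : Cm 2 → Cm 2 → (BF →L[ℝ] ℂ) := fun u v =>
    (ContinuousLinearMap.apply ℝ ℂ v).comp (ContinuousLinearMap.apply ℝ (Cm 2 →L[ℝ] ℂ) u)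
  (1 / 4 : ℂ) • (ap (Pi.single i 1) (Pi.single j 1) +
    δ • ap (Pi.single i 1) (Pi.single j Complex.I) +
    ε • ap (Pi.single i Complex.I) (Pi.single j 1) +
    (ε * δ) • ap (Pi.single i Complex.I) (Pi.single j Complex.I))

theorem Ev_apply (ε δ : ℂ) (i j : Fin 2) (β : BF) : Ev ε δ i j β =
    (1 / 4 : ℂ) * (β (Pi.single i 1) (Pi.single j 1) +
      δ * β (Pi.single i 1) (Pi.single j Complex.I) +
      ε * β (Pi.single i Complex.I) (Pi.single j 1) +
      (ε * δ) * β (Pi.single i Complex.I) (Pi.single j Complex.I)) := rfl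

/-- coefficient of `dz₀ ∧ dz₁` -/
def cA : BF →L[ℝ] ℂ := Ev (-Complex.I) (-Complex.I) 0 1

/-- coefficient of `dz_i ∧ dz̄_j` -/
def cB (i j : Fin 2) : BF →L[ℝ] ℂ := Ev (-Complex.I) Complex.I i j

/-- coefficient of `dz̄₀ ∧ dz̄₁` -/
def cC : BF →L[ℝ] ℂ := Ev Complex.I Complex.I 0 1

/-- the value of the form with components `a, b, c` -/
def rep (a : ℂ) (b : Fin 2 → Fin 2 → ℂ) (c : ℂ) (u v : Cm 2) : ℂ :=
  a * (u 0 * v 1 - u 1 * v 0) +
    ∑ i, ∑ j, b i j * (u i * conj (v j) - v i * conj (u j)) +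
    c * (conj (u 0) * conj (v 1) - conj (u 1) * conj (v 0))

theorem cm_expand (u : Cm 2) : u = (u 0).re • (Pi.single 0 1 : Cm 2) +
    (u 0).im • (Pi.single 0 Complex.I : Cm 2) + (u 1).re • (Pi.single 1 1 : Cm 2) +
    (u 1).im • (Pi.single 1 Complex.I : Cm 2) := by
  funext i
  fin_cases i
  · simp [Pi.single_apply]
  · simp [Pi.single_apply]

/-- alternating -/
def Alt (β : BF) : Prop := ∀ u v, β u v = -β v u

theorem Alt.self {β : BF} (h : Alt β) (u : Cm 2) : β u u = 0 := by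
  have := h u u
  have h2 : (2 : ℂ) * β u u = 0 := by linear_combination this
  simpa using h2

theorem rep_eq {β : BF} (h : Alt β) (u v : Cm 2) :
    β u v = rep (cA β) (fun i j => cB i j β) (cC β) u v := by
  have hI := Complex.I_mul_I
  have e1 : ∀ u : Cm 2, ∀ v, β u v = (u 0).re * β (Pi.single 0 1) v +
      (u 0).im * β (Pi.single 0 Complex.I) v + (u 1).re * β (Pi.single 1 1) v +
      (u 1).im * β (Pi.single 1 Complex.I) v := by
    intro u v
    conv_lhs => rw [cm_expand u]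
    simp only [map_add, map_smul, add_apply, smul_apply, Complex.real_smul]
  have e2 : ∀ u : Cm 2, ∀ v, β u v = (v 0).re * β u (Pi.single 0 1) +
      (v 0).im * β u (Pi.single 0 Complex.I) + (v 1).re * β u (Pi.single 1 1) +
      (v 1).im * β u (Pi.single 1 Complex.I) := by
    intro u v
    conv_lhs => rw [cm_expand v]
    simp only [map_add, map_smul, Complex.real_smul]
  have s0 := h.self (Pi.single 0 1)
  have s1 := h.self (Pi.single 0 Complex.I)
  have s2 := h.self (Pi.single 1 1)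
  have s3 := h.self (Pi.single 1 Complex.I)
  have a1 := h (Pi.single 0 Complex.I) (Pi.single 0 1)
  have a2 := h (Pi.single 1 1) (Pi.single 0 1)
  have a3 := h (Pi.single 1 Complex.I) (Pi.single 0 1)
  have a4 := h (Pi.single 1 1) (Pi.single 0 Complex.I)
  have a5 := h (Pi.single 1 Complex.I) (Pi.single 0 Complex.I)
  have a6 := h (Pi.single 1 Complex.I) (Pi.single 1 1)
  rw [e1 u v, e2 (Pi.single 0 1) v, e2 (Pi.single 0 Complex.I) v, e2 (Pi.single 1 1) v,
    e2 (Pi.single 1 Complex.I) v]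
  have cu0 : conj (u 0) = (u 0).re - (u 0).im * Complex.I := by
    apply Complex.ext <;> simp
  have cu1 : conj (u 1) = (u 1).re - (u 1).im * Complex.I := by
    apply Complex.ext <;> simp
  have cv0 : conj (v 0) = (v 0).re - (v 0).im * Complex.I := by
    apply Complex.ext <;> simp
  have cv1 : conj (v 1) = (v 1).re - (v 1).im * Complex.I := by
    apply Complex.ext <;> simp
  simp only [rep, cA, cB, cC, Ev_apply, Fin.sum_univ_two, cu0, cu1, cv0, cv1, s0, s1, s2, s3,
    a1, a2, a3, a4, a5, a6]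
  have du0 : u 0 = (u 0).re + (u 0).im * Complex.I := (Complex.re_add_im (u 0)).symm
  have du1 : u 1 = (u 1).re + (u 1).im * Complex.I := (Complex.re_add_im (u 1)).symm
  have dv0 : v 0 = (v 0).re + (v 0).im * Complex.I := (Complex.re_add_im (v 0)).symm
  have dv1 : v 1 = (v 1).re + (v 1).im * Complex.I := (Complex.re_add_im (v 1)).symm
  generalize (u 0).re = x0 at *
  generalize (u 0).im = y0 at *
  generalize (u 1).re = x1 at *
  generalize (u 1).im = y1 at *
  generalize (v 0).re = p0 at *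
  generalize (v 0).im = q0 at *
  generalize (v 1).re = p1 at *
  generalize (v 1).im = q1 at *
  rw [du0, du1, dv0, dv1]
  generalize β (Pi.single 0 1) (Pi.single 0 Complex.I) = b01
  generalize β (Pi.single 0 1) (Pi.single 1 1) = b02
  generalize β (Pi.single 0 1) (Pi.single 1 Complex.I) = b03
  generalize β (Pi.single 0 Complex.I) (Pi.single 1 1) = b12
  generalize β (Pi.single 0 Complex.I) (Pi.single 1 Complex.I) = b13
  generalize β (Pi.single 1 1) (Pi.single 1 Complex.I) = b23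
  have hI2 : Complex.I ^ 2 = -1 := Complex.I_sq
  have hI3 : Complex.I ^ 3 = -Complex.I := by
    rw [pow_succ, hI2]; ring
  have hI4 : Complex.I ^ 4 = 1 := by
    rw [show (4 : ℕ) = 2 * 2 from rfl, pow_mul, hI2]; ring
  ring_nf
  simp only [hI2, hI3, hI4]
  ring

theorem cA_pull {β β' : BF} (hβ' : Alt β') (J : Matrix (Fin 2) (Fin 2) ℂ)
    (h : ∀ u v, β u v = β' (J.mulVec u) (J.mulVec v)) : cA β = J.det * cA β' := by
  have hI2 : Complex.I ^ 2 = -1 := Complex.I_sq
  have hI3 : Complex.I ^ 3 = -Complex.I := by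
    rw [pow_succ, hI2]; ring
  have hI4 : Complex.I ^ 4 = 1 := by
    rw [show (4 : ℕ) = 2 * 2 from rfl, pow_mul, hI2]; ring
  rw [cA, Ev_apply, ← cA]
  simp only [h, rep_eq hβ']
  simp only [rep, Matrix.mulVec, dotProduct, Fin.sum_univ_two, Pi.single_apply,
    Matrix.det_fin_two, map_add, map_mul, Fin.isValue]
  norm_num
  generalize cA β' = a
  generalize cC β' = c
  generalize cB 0 0 β' = b00
  generalize cB 0 1 β' = b01
  generalize cB 1 0 β' = b10
  generalize cB 1 1 β' = b11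
  ring_nf
  simp only [hI2, hI3, hI4]
  ring

theorem cC_pull {β β' : BF} (hβ' : Alt β') (J : Matrix (Fin 2) (Fin 2) ℂ)
    (h : ∀ u v, β u v = β' (J.mulVec u) (J.mulVec v)) : cC β = conj J.det * cC β' := by
  have hI2 : Complex.I ^ 2 = -1 := Complex.I_sq
  have hI3 : Complex.I ^ 3 = -Complex.I := by
    rw [pow_succ, hI2]; ring
  have hI4 : Complex.I ^ 4 = 1 := by
    rw [show (4 : ℕ) = 2 * 2 from rfl, pow_mul, hI2]; ring
  rw [cC, Ev_apply, ← cC]
  simp only [h, rep_eq hβ']
  simp only [rep, Matrix.mulVec, dotProduct, Fin.sum_univ_two, Pi.single_apply,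
    Matrix.det_fin_two, map_add, map_mul, map_sub, Fin.isValue]
  norm_num
  generalize cA β' = a
  generalize cC β' = c
  generalize cB 0 0 β' = b00
  generalize cB 0 1 β' = b01
  generalize cB 1 0 β' = b10
  generalize cB 1 1 β' = b11
  ring_nf
  simp only [hI2, hI3, hI4]
  ring

theorem cB_pull {β β' : BF} (hβ' : Alt β') (J : Matrix (Fin 2) (Fin 2) ℂ)
    (h : ∀ u v, β u v = β' (J.mulVec u) (J.mulVec v)) (i j : Fin 2) :
    cB i j β = ∑ p, ∑ q, (J p i * conj (J q j)) * cB p q β' := by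
  have hI2 : Complex.I ^ 2 = -1 := Complex.I_sq
  have hI3 : Complex.I ^ 3 = -Complex.I := by
    rw [pow_succ, hI2]; ring
  have hI4 : Complex.I ^ 4 = 1 := by
    rw [show (4 : ℕ) = 2 * 2 from rfl, pow_mul, hI2]; ring
  rw [cB, Ev_apply]
  simp only [h, rep_eq hβ']
  have e1 : ∀ (k : Fin 2) (c : ℂ) (p : Fin 2), J.mulVec (Pi.single k c) p = J p k * c := by
    intro k c p
    simp
  simp only [rep, e1, Fin.sum_univ_two, map_mul, Complex.conj_I, map_one, mul_one, Fin.isValue]
  generalize cA β' = a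
  generalize cC β' = c
  generalize cB 0 0 β' = b00
  generalize cB 0 1 β' = b01
  generalize cB 1 0 β' = b10
  generalize cB 1 1 β' = b11
  ring_nf
  simp only [hI2, hI3, hI4]
  ring

theorem prg_eq {α β : BF} (hα : Alt α) (hβ : Alt β) : prg α β =
    4 * (cA α * cC β + cC α * cA β - (cB 0 0 α * cB 1 1 β + cB 1 1 α * cB 0 0 β -
      cB 0 1 α * cB 1 0 β - cB 1 0 α * cB 0 1 β)) := by
  have hI2 : Complex.I ^ 2 = -1 := Complex.I_sq
  have hI3 : Complex.I ^ 3 = -Complex.I := by
    rw [pow_succ, hI2]; ring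
  have hI4 : Complex.I ^ 4 = 1 := by
    rw [show (4 : ℕ) = 2 * 2 from rfl, pow_mul, hI2]; ring
  have b0 : bs 0 = Pi.single 0 1 := rfl
  have b1 : bs 1 = Pi.single 0 Complex.I := rfl
  have b2 : bs 2 = Pi.single 1 1 := rfl
  have b3 : bs 3 = Pi.single 1 Complex.I := rfl
  rw [prg]
  simp only [b0, b1, b2, b3, rep_eq hα, rep_eq hβ]
  simp only [rep, Fin.sum_univ_two, Pi.single_apply, Fin.isValue]
  norm_num
  generalize cA α = a
  generalize cC α = c
  generalize cB 0 0 α = b00
  generalize cB 0 1 α = b01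
  generalize cB 1 0 α = b10
  generalize cB 1 1 α = b11
  generalize cA β = a'
  generalize cC β = c'
  generalize cB 0 0 β = b00'
  generalize cB 0 1 β = b01'
  generalize cB 1 0 β = b10'
  generalize cB 1 1 β = b11'
  ring_nf
  simp only [hI2, hI3, hI4]
  ring

theorem alt_cjB {β : BF} (h : Alt β) : Alt (cjB β) := by
  intro u v
  rw [cjB_apply, cjB_apply, h u v, map_neg]

theorem cA_cj (β : BF) : cA (cjB β) = conj (cC β) := by
  simp only [cA, cC, Ev_apply, cjB_apply, map_mul, map_add, Complex.conj_I, map_div₀, map_one,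
    map_ofNat]

theorem cC_cj (β : BF) : cC (cjB β) = conj (cA β) := by
  simp only [cA, cC, Ev_apply, cjB_apply, map_mul, map_add, Complex.conj_I, map_div₀, map_one,
    map_ofNat, map_neg, neg_neg]

theorem cB_cj {β : BF} (h : Alt β) (i j : Fin 2) : cB i j (cjB β) = -conj (cB j i β) := by
  have h1 := h (Pi.single i 1) (Pi.single j 1)
  have h2 := h (Pi.single i 1) (Pi.single j Complex.I)
  have h3 := h (Pi.single i Complex.I) (Pi.single j 1)
  have h4 := h (Pi.single i Complex.I) (Pi.single j Complex.I)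
  simp only [cB, Ev_apply, cjB_apply, map_mul, map_add, Complex.conj_I, map_div₀, map_one,
    map_ofNat, map_neg, neg_neg, h1, h2, h3, h4]
  ring

/-- `dz₀ ∧ dz₁` -/
def dzz : BF :=
  LinearMap.mkContinuous₂ (LinearMap.mk₂ ℝ (fun u v : Cm 2 => u 0 * v 1 - u 1 * v 0)
    (by intro u u' v; simp only [Pi.add_apply]; ring)
    (by intro c u v; simp only [Pi.smul_apply, Complex.real_smul]; ring)
    (by intro u v v'; simp only [Pi.add_apply]; ring)
    (by intro c u v; simp only [Pi.smul_apply, Complex.real_smul]; ring)) 2 (by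
    intro u v
    simp only [LinearMap.mk₂_apply]
    have a0 := norm_le_pi_norm u 0
    have a1 := norm_le_pi_norm u 1
    have b0 := norm_le_pi_norm v 0
    have b1 := norm_le_pi_norm v 1
    have h1 : ‖u 0 * v 1‖ ≤ ‖u‖ * ‖v‖ := by
      rw [norm_mul]; exact mul_le_mul a0 b1 (norm_nonneg _) (norm_nonneg _)
    have h2 : ‖u 1 * v 0‖ ≤ ‖u‖ * ‖v‖ := by
      rw [norm_mul]; exact mul_le_mul a1 b0 (norm_nonneg _) (norm_nonneg _)
    calc ‖u 0 * v 1 - u 1 * v 0‖ ≤ ‖u 0 * v 1‖ + ‖u 1 * v 0‖ := norm_sub_le _ _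
      _ ≤ ‖u‖ * ‖v‖ + ‖u‖ * ‖v‖ := add_le_add h1 h2
      _ = 2 * ‖u‖ * ‖v‖ := by ring)

theorem dzz_apply (u v : Cm 2) : dzz u v = u 0 * v 1 - u 1 * v 0 := rfl

theorem alt_dzz (c : ℂ) : Alt (c • dzz) := by
  intro u v
  simp only [smul_apply, dzz_apply, smul_eq_mul]
  ring

theorem comp_dzz (c : ℂ) : cA (c • dzz) = c ∧ cC (c • dzz) = 0 ∧ ∀ i j, cB i j (c • dzz) = 0 := by
  have hI2 : Complex.I ^ 2 = -1 := Complex.I_sq
  refine ⟨?_, ?_, fun i j => ?_⟩
  · simp only [cA, Ev_apply, smul_apply, dzz_apply, smul_eq_mul, Pi.single_apply, Fin.isValue]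
    norm_num
    ring_nf
    simp only [hI2]
    ring
  · simp only [cC, Ev_apply, smul_apply, dzz_apply, smul_eq_mul, Pi.single_apply, Fin.isValue]
    norm_num
    ring_nf
    simp only [hI2]
    ring
  · fin_cases i <;> fin_cases j <;>
      simp [cB, Ev_apply, smul_apply, dzz_apply, smul_eq_mul, Pi.single_apply] <;> ring_nf <;>
      simp [hI2]

end Vale.Agent.P298.H723
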