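import Vale.Agent.P298.H723.HodgeIndex
import Vale.Agent.P298.H39.Den

/-!
# P298, S1-GEO, RES3: restriction of relative forms to a fibre, Hodge index in a family
-/

set_option linter.unusedSectionVars false
set_option maxSynthPendingDepth 3

open scoped Manifold ContDiff ComplexConjugate Matrix ComplexOrder Topology
open MeasureTheory Set

noncomputable section

namespace Vale.Agent.P298.H723

open Vale.Agent.P298.H39
open Vale.Agent.P272.K (Cm Chart)

variable {Z : Type} [TopologicalSpace Z] {F : Fam Z} {t : ℂ}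

/-! ### restriction of relative 2-forms -/

section res

variable {α β : PC Z → Cm 2 × ℂ → BF} {f f' : Chart 2 (F.Fib t)} {e e' : PC Z} {x : F.Fib t}

theorem rf2_res_apply (hα : IsRF2 F α) (h : IsFC F t f e) (hx : x ∈ f.source) :
    res F t α f (f x) = α e (e x.val) := by
  have h1 : ∃ e, IsFC F t f e := ⟨e, h⟩
  have h2 := isFC_up f h1
  rw [res, dif_pos h1, ← h2.apply hx]
  ext1 u
  ext1 v
  rw [hα.change _ h2.mem e h.mem x.val ((h2.src x).mp hx) ((h.src x).mp hx), ← fjL_apply,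
    ← fjL_apply, h2.fjL_id h hx]
  rfl

theorem rf2_res_eq (hα : IsRF2 F α) (h : IsFC F t f e) {w : Cm 2} (hw : w ∈ f.target) :
    res F t α f w = α e (w, t) := by
  have h1 := rf2_res_apply hα h (f.map_target hw)
  rw [f.right_inv hw, h.symm_val hw, e.right_inv (h.mem_target hw)] at h1
  exact h1

theorem rf2_res_eventually (hα : IsRF2 F α) (h : IsFC F t f e) {w : Cm 2} (hw : w ∈ f.target) :
    res F t α f =ᶠ[𝓝 w] fun w => α e (w, t) := by
  filter_upwards [f.open_target.mem_nhds hw] with w' hw'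
  exact rf2_res_eq hα h hw'

/-- the restriction of a relative form is a form on the fibre -/
theorem isF2_res (hα : IsRF2 F α) (t : ℂ) : IsF2 (Z := F.Fib t) (res F t α) where
  smooth f hf w hw := by
    obtain ⟨e, he⟩ := mem_atlas_fib.mp hf
    refine ContDiffAt.congr_of_eventuallyEq ?_ (rf2_res_eventually hα he hw)
    have h1 := hα.smooth e he.mem (w, t) (he.mem_target hw)
    exact ContDiffAt.comp (g := α e) w h1 (contDiffAt_id.prodMk contDiffAt_const)
  alt f hf w hw u v := by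
    obtain ⟨e, he⟩ := mem_atlas_fib.mp hf
    rw [rf2_res_eq hα he hw]
    exact hα.alt e he.mem _ (he.mem_target hw) u v
  change f hf f' hf' x hx hx' u v := by
    obtain ⟨e, he⟩ := mem_atlas_fib.mp hf
    obtain ⟨e', he'⟩ := mem_atlas_fib.mp hf'
    rw [rf2_res_apply hα he hx, rf2_res_apply hα he' hx',
      (he.hasFDerivAt_trans he' hx hx').fderiv,
      hα.change e he.mem e' he'.mem x.val ((he.src x).mp hx) ((he'.src x).mp hx')]
    rfl

/-- the restriction of a form closed along the fibres is closed -/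
theorem isC2_res (hα : IsRF2 F α) (hc : IsCl2 F α) (t : ℂ) :
    IsC2 (Z := F.Fib t) (res F t α) := by
  intro f hf w hw u v x
  obtain ⟨e, he⟩ := mem_atlas_fib.mp hf
  have h1 : DifferentiableAt ℝ (α e) (w, t) :=
    (hα.smooth e he.mem (w, t) (he.mem_target hw)).differentiableAt (by simp)
  have h2 : HasFDerivAt (fun w : Cm 2 => (w, t)) (ContinuousLinearMap.inl ℝ (Cm 2) ℂ) w := by
    have := (hasFDerivAt_id (𝕜 := ℝ) w).prodMk (hasFDerivAt_const t w)
    exact this
  have h3 : HasFDerivAt (fun w : Cm 2 => α e (w, t))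
      ((fderiv ℝ (α e) (w, t)).comp (ContinuousLinearMap.inl ℝ (Cm 2) ℂ)) w :=
    HasFDerivAt.comp (g := α e) w h1.hasFDerivAt h2
  have h4 : fderiv ℝ (res F t α f) w =
      (fderiv ℝ (α e) (w, t)).comp (ContinuousLinearMap.inl ℝ (Cm 2) ℂ) := by
    rw [(rf2_res_eventually hα he hw).fderiv_eq, h3.fderiv]
  rw [h4]
  exact hc e he.mem (w, t) (he.mem_target hw) u v x

theorem res_prh (α β : PC Z → Cm 2 × ℂ → BF) (f : Chart 2 (F.Fib t)) (w : Cm 2) :
    res F t (fun e q => prh (α e q) (β e q)) f w = prh (res F t α f w) (res F t β f w) := by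
  unfold res
  split_ifs with h
  · rfl
  · simp [prh, prg]

theorem intF_eq_cI [T2Space Z] (ht : t ∈ F.Ω) [CompactSpace (F.Fib t)] (D : PC Z → Cm 2 × ℂ → ℂ) :
    intF F t D = cI (Z := F.Fib t) (res F t D) :=
  intF_def ht D

theorem intF_prh [T2Space Z] (ht : t ∈ F.Ω) [CompactSpace (F.Fib t)]
    (α β : PC Z → Cm 2 × ℂ → BF) :
    intF F t (fun e q => prh (α e q) (β e q)) =
      cI (Z := F.Fib t) fun f w => prh (res F t α f w) (res F t β f w) := by
  rw [intF_eq_cI ht]
  congr 1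
  funext f w
  exact res_prh α β f w

end res

/-! ### the deck transformation on a fibre -/

section deck

/-- restriction to the fibre of a homeomorphism over the base -/
def fibH (σ : Z ≃ₜ Z) (hp : ∀ z, F.p (σ z) = F.p z) (t : ℂ) : F.Fib t ≃ₜ F.Fib t where
  toFun z := ⟨σ z.val, by rw [hp, z.prop]⟩
  invFun z := ⟨σ.symm z.val, by rw [← hp, σ.apply_symm_apply, z.prop]⟩
  left_inv z := Fam.Fib.ext (σ.symm_apply_apply z.val)
  right_inv z := Fam.Fib.ext (σ.apply_symm_apply z.val)
  continuous_toFun := by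
    rw [isEmbedding_fib.isInducing.continuous_iff]
    exact σ.continuous.comp continuous_fib
  continuous_invFun := by
    rw [isEmbedding_fib.isInducing.continuous_iff]
    exact σ.symm.continuous.comp continuous_fib

variable {σ : Z ≃ₜ Z} {hp : ∀ z, F.p (σ z) = F.p z} {f : Chart 2 (F.Fib t)} {e : PC Z}

theorem fibH_val (z : F.Fib t) : (fibH σ hp t z).val = σ z.val := rfl

theorem fibH_symm_val (z : F.Fib t) : ((fibH σ hp t).symm z).val = σ.symm z.val := rfl

theorem fibH_iter (m : ℕ) (z : F.Fib t) : ((fibH σ hp t)^[m] z).val = σ^[m] z.val := by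
  induction m generalizing z with
  | zero => rfl
  | succ n ih => rw [Function.iterate_succ_apply, Function.iterate_succ_apply, ih, fibH_val]

theorem isFC_trans (hσ : ∀ e ∈ F.A, σ.transOpenPartialHomeomorph e ∈ F.A) (h : IsFC F t f e) :
    IsFC F t ((fibH σ hp t).transOpenPartialHomeomorph f) (σ.transOpenPartialHomeomorph e) where
  mem := hσ e h.mem
  src z := h.src (fibH σ hp t z)
  eq z hz := h.eq (fibH σ hp t z) hz

theorem fibH_atlas (hσ : ∀ e ∈ F.A, σ.transOpenPartialHomeomorph e ∈ F.A) :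
    ∀ f ∈ atlas (Cm 2) (F.Fib t),
      (fibH σ hp t).transOpenPartialHomeomorph f ∈ atlas (Cm 2) (F.Fib t) := by
  rintro f ⟨e, he⟩
  exact ⟨_, isFC_trans hσ he⟩

theorem res_character (hσ : ∀ e ∈ F.A, σ.transOpenPartialHomeomorph e ∈ F.A)
    {α : PC Z → Cm 2 × ℂ → BF} (hα : IsRF2 F α) {χ : ℂ}
    (hαχ : ∀ e ∈ F.A, ∀ q ∈ e.target, α e q = χ • α (σ.transOpenPartialHomeomorph e) q) :
    ∀ f ∈ atlas (Cm 2) (F.Fib t), ∀ w ∈ f.target,
      res F t α f w = χ • res F t α ((fibH σ hp t).transOpenPartialHomeomorph f) w := by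
  rintro f ⟨e, he⟩ w hw
  rw [rf2_res_eq hα he hw, rf2_res_eq hα (isFC_trans (hp := hp) hσ he) (w := w) hw]
  exact hαχ e he.mem _ (he.mem_target hw)

end deck

/-! ### linear combinations -/

theorem prh_add_right (α β γ : BF) : prh α (β + γ) = prh α β + prh α γ := by
  simp only [prh, prg, cjB_apply, _root_.add_apply, map_add]
  ring

theorem prh_smul_right (c : ℂ) (α β : BF) : prh α (c • β) = conj c * prh α β := by
  simp only [prh, prg, cjB_apply, ContinuousLinearMap.smul_apply, smul_eq_mul, map_mul]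
  ring

theorem prh_sum_right {ι : Type} (s : Finset ι) (c : ι → ℂ) (α : BF) (β : ι → BF) :
    prh α (∑ i ∈ s, c i • β i) = ∑ i ∈ s, conj (c i) * prh α (β i) := by
  classical
  induction s using Finset.induction_on with
  | empty => simp [prh, prg, cjB_apply]
  | insert a s ha ih =>
    rw [Finset.sum_insert ha, Finset.sum_insert ha, prh_add_right, prh_smul_right, ih]

section fam

variable [T2Space Z] {α : PC Z → Cm 2 × ℂ → BF}

theorem isDC_res {D : PC Z → Cm 2 × ℂ → ℂ} (hD : IsDen F D) (t : ℂ) :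
    IsDC (Z := F.Fib t) (res F t D) where
  cont f hf x hx := by
    obtain ⟨e, he⟩ := mem_atlas_fib.mp hf
    have h1 : res F t D f =ᶠ[𝓝 (f x)] fun w => D e (w, t) := by
      filter_upwards [f.open_target.mem_nhds (f.map_source hx)] with w hw
      rw [hD.res_eq he hw]
    refine ContinuousAt.congr ?_ h1.symm
    have h2 := (hD.smooth e he.mem (e x.val) (e.map_source ((he.src x).mp hx))).continuousAt
    rw [he.apply hx] at h2
    have h3 : ContinuousAt (fun w : Cm 2 => (w, t)) (f x) := by fun_prop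
    exact ContinuousAt.comp (g := D e) h2 h3
  change f hf f' hf' x hx hx' := by
    obtain ⟨e, he⟩ := mem_atlas_fib.mp hf
    obtain ⟨e', he'⟩ := mem_atlas_fib.mp hf'
    rw [hD.res_apply he hx, hD.res_apply he' hx',
      hD.change e he.mem e' he'.mem x.val ((he.src x).mp hx) ((he'.src x).mp hx'),
      he.dj_eq he' hx hx']
    ring

/-- orthogonality to a family of relative forms gives orthogonality to everything which is a
linear combination of them on the fibre -/
theorem cI_span {ι : Type} [Fintype ι] (ht : t ∈ F.Ω) [CompactSpace (F.Fib t)] (hα : IsRF2 F α)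
    {w : ι → PC Z → Cm 2 × ℂ → BF} (hw : ∀ i, IsRF2 F (w i))
    (h0 : ∀ i, intF F t (fun e q => prh (α e q) (w i e q)) = 0) {γ : Chart 2 (F.Fib t) → Cm 2 → BF}
    {c : ι → ℂ} (hγ : ∀ f ∈ atlas (Cm 2) (F.Fib t), ∀ q ∈ f.target,
      γ f q = ∑ i, c i • res F t (w i) f q) :
    cI (Z := F.Fib t) (fun f q => prh (res F t α f q) (γ f q)) = 0 := by
  have h1 : ∀ i, IsDC (Z := F.Fib t) fun f q => prh (res F t α f q) (res F t (w i) f q) := by
    intro i
    have h2 := isDC_res (isDen_prh hα (hw i)) t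
    have h3 : (res F t fun e q => prh (α e q) (w i e q)) =
        fun f q => prh (res F t α f q) (res F t (w i) f q) := by
      funext f q
      exact res_prh α (w i) f q
    rwa [h3] at h2
  have h2 : cI (Z := F.Fib t) (fun f q => prh (res F t α f q) (γ f q)) =
      cI (Z := F.Fib t) (fun f q => ∑ i ∈ Finset.univ,
        conj (c i) * prh (res F t α f q) (res F t (w i) f q)) := by
    refine cI_congr fun f hf q hq => ?_
    rw [hγ f hf q hq, prh_sum_right]
  rw [h2, cI_sum Finset.univ fun i _ => (h1 i).const_mul (conj (c i))]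
  refine Finset.sum_eq_zero fun i _ => ?_
  rw [cI_const_mul (h1 i), ← intF_prh ht, h0 i, mul_zero]

/-- **Hodge index in a family.** -/
theorem hodge_index_fam (ht : t ∈ F.Ω) [ConnectedSpace (F.Fib t)]
    {w : Chart 2 (F.Fib t) → Cm 2 → Matrix (Fin 2) (Fin 2) ℂ} (hw : P272.K.IsKahler w)
    (σ : Z ≃ₜ Z) (hp : ∀ z, F.p (σ z) = F.p z)
    (hσ : ∀ e ∈ F.A, σ.transOpenPartialHomeomorph e ∈ F.A) {m : ℕ} (hm : 0 < m)
    (hσm : ∀ z, σ^[m] z = z) {χ : ℂ} (hχ : χ ^ m = 1) (hχ1 : χ ≠ 1)
    (hα : IsRF2 F α) (hc : IsCl2 F α)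
    (hαχ : ∀ e ∈ F.A, ∀ q ∈ e.target, α e q = χ • α (σ.transOpenPartialHomeomorph e) q)
    {ι κ : Type} [Fintype ι] [Fintype κ] {a : ι → PC Z → Cm 2 × ℂ → BF}
    {b : κ → PC Z → Cm 2 × ℂ → BF} (ha : ∀ i, IsRF2 F (a i)) (hb : ∀ i, IsRF2 F (b i))
    (h20 : ∀ h : Chart 2 (F.Fib t) → Cm 2 → ℂ, IsHol2 (Z := F.Fib t) h →
      (∀ f ∈ atlas (Cm 2) (F.Fib t), ∀ q ∈ f.target,
        h f q = χ * h ((fibH σ hp t).transOpenPartialHomeomorph f) q) →
      ∃ c : ι → ℂ, ∀ f ∈ atlas (Cm 2) (F.Fib t), ∀ q ∈ f.target,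
        h f q • dzz = ∑ i, c i • res F t (a i) f q)
    (h02 : ∀ h : Chart 2 (F.Fib t) → Cm 2 → ℂ, IsHol2 (Z := F.Fib t) h →
      (∀ f ∈ atlas (Cm 2) (F.Fib t), ∀ q ∈ f.target,
        h f q = conj χ * h ((fibH σ hp t).transOpenPartialHomeomorph f) q) →
      ∃ c : κ → ℂ, ∀ f ∈ atlas (Cm 2) (F.Fib t), ∀ q ∈ f.target,
        cjB (h f q • dzz) = ∑ i, c i • res F t (b i) f q)
    (o20 : ∀ i, intF F t (fun e q => prh (α e q) (a i e q)) = 0)
    (o02 : ∀ i, intF F t (fun e q => prh (α e q) (b i e q)) = 0) :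
    (intF F t fun e q => prh (α e q) (α e q)).re ≤ 0 := by
  have := F.compact_fib ht
  rw [intF_prh ht]
  refine hodge_index_deck (Z := F.Fib t) hw (fibH σ hp t) (fibH_atlas hσ) hm
    (fun x => Fam.Fib.ext (by rw [fibH_iter, hσm])) hχ hχ1 (isF2_res hα t) (isC2_res hα hc t)
    (res_character hσ hα hαχ) (fun h hh hc' => ?_) (fun h hh hc' => ?_)
  · obtain ⟨c, h1⟩ := h20 h hh hc'
    exact cI_span ht hα ha o20 h1
  · obtain ⟨c, h1⟩ := h02 h hh hc'
    exact cI_span ht hα hb o02 h1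

end fam

end Vale.Agent.P298.H723
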