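import Vale.Agent.P298.H723.E3a
import Vale.Agent.P298.H39.Asm5
import Vale.Agent.P298.H863.C12
import Vale.Agent.P298.H265.FSInst

/-!
# P298, S1-GEO, R0/E3: the structure `Geo` for the family of cyclic covers
-/

set_option linter.unusedSectionVars false
set_option maxSynthPendingDepth 3

open scoped Manifold ContDiff ComplexConjugate Matrix Topology
open Set Filter

noncomputable section

namespace Vale.Agent.P298.H723

open Vale.Agent.P298.H39 (PC BF Fam IsFC HCf HCh Geo mem_atlas_fib up isFC_up)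
open Vale.Agent.P298.H863 (VN TZ CIF Rep IsPC IsL HPol cf cf_eq cfL gZ gS ini lst snc mulY dk dlin
  fam Dat Good LocAn KZ cf_mulY isHolCf_cf eig_form dense_t mapsTo_snc ini_snc lst_snc dS)
open Vale.Agent.P272.K (Cm Chart)
open Vale.Agent.P298.H845 (Kc)

section generic

variable {K : ℕ} {Ω : Set ℂ} {G : ℂ × VN (K + 3) → (Fin K → ℂ)} {dg : Fin K → ℕ} {N : ℕ} {t : ℂ}

/-- the coefficient on the fibre over `t` depends only on the function on the cone over `t` -/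
theorem cf_congr_fib (h : CIF Ω G dg) (hN : N + (K + 3) = ∑ k, dg k)
    {P P' : ℂ × VN (K + 3) → ℂ} (hP : HPol Ω P N) (hP' : HPol Ω P' N)
    (hPP : ∀ x ∈ Kt G t, P (t, x) = P' (t, x)) {e : PC (TZ Ω G)}
    (he : IsPC e) {q : Cm 2 × ℂ} (hq : q ∈ e.target) (hqt : q.2 = t) : cf P e q = cf P' e q := by
  obtain ⟨L, hL⟩ := he.exists_isL hq
  have hc := hL.mem_cone h
  have h1 : (L q).1 = t := (hL.fst he hq).self_of_nhds.trans hqt
  have h2 : L q = (t, (L q).2) := Prod.ext h1 rfl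
  have h3 : (L q).2 ∈ Kt G t := ⟨hc.2.1, by rw [← h2]; exact hc.2.2⟩
  have h4 : P (L q) = P' (L q) := by
    rw [h2]
    exact hPP _ h3
  rw [cf_eq h hP hN he hq hL, cf_eq h hP' hN he hq hL, cfL, cfL, h4]

theorem locAn_hpol {P : ℂ × VN (K + 3) → ℂ} (hP : HPol Ω P N) (ht : t ∈ Ω) :
    LocAn (Kt G t) (fun x => P (t, x)) := by
  refine LocAn.of_analytic fun x hx => ?_
  exact AnalyticAt.comp (g := P) (f := fun x : VN (K + 3) => ((t, x) : ℂ × VN (K + 3)))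
    (hP.an t ht x hx.1) (analyticAt_const.prod analyticAt_id)

end generic

section cyc

variable {D Ω : Set ℂ} {d M : ℕ} {G H : ℂ × VN (1 + 3) → ℂ}

/-- coefficients of the frame -/
def cw (Ω : Set ℂ) (G H : ℂ × VN (1 + 3) → ℂ) (M j k d : ℕ) (i : Fin (nix k d)) :
    PC (TZ Ω (gZ G H M)) → Cm 2 × ℂ → ℂ :=
  cf (mulY (Qm (MvPolynomial.monomial (mon k d i) 1)) j)

variable (hZ : CIF Ω (gZ G H M) ![d, M]) {j k N : ℕ} (hkj : k + j = N)
  (hN : N + (2 + 3) = ∑ k, ![d, M] k)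

include hkj hN hZ

theorem hcf_cw (i : Fin (nix k d)) : HCf (fam hZ rfl) (cw Ω G H M j k d i) where
  an e he q hq := (isHolCf_wfm hZ hkj hN i).hol e he q hq
  change e he e' he' z hz hz' := (isHolCf_wfm hZ hkj hN i).change e he e' he' z hz hz'

theorem hch_cw {ζ : ℂ} (hζ : ζ ≠ 0) (hM : ζ ^ M = 1) (i : Fin (nix k d)) :
    HCh (fam hZ rfl) (dk hZ hζ hM) (ζ ^ (1 + j)) (cw Ω G H M j k d i) :=
  fun _ he _ hq => cf_mulY hZ hζ hM (hpol_mon hkj i) hN he hq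

theorem sum_cw (c : Fin (nix k d) → ℂ) {e : PC (TZ Ω (gZ G H M))} (he : IsPC e) {q : Cm 2 × ℂ}
    (hq : q ∈ e.target) : ∑ i, c i * cw Ω G H M j k d i e q =
      cf (mulY (Qm (pol k d c)) j) e q := by
  rw [mulY_pol, cf_sum hZ hN Finset.univ c (fun i _ => hpol_mon hkj i) he hq]
  rfl

/-- if a linear combination vanishes on the fibre over `t` then the polynomial vanishes on the
cone -/
theorem eval_eq_zero' {t : ℂ} (ht : t ∈ Ω) (c : Fin (nix k d) → ℂ)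
    (h0 : ∀ e ∈ (fam hZ rfl).A, ∀ q ∈ e.target, q.2 = t → ∑ i, c i * cw Ω G H M j k d i e q = 0)
    {x : VN (2 + 3)} (hx : x ∈ Kt (gZ G H M) t) :
    MvPolynomial.eval (ini x) (pol k d c) * lst x ^ j = 0 := by
  obtain ⟨z, hz⟩ := H863.exists_of_cone (Kt.cone ht hx)
  obtain ⟨e, he, hs⟩ := H863.exists_pc hZ rfl z
  obtain ⟨a, ha⟩ := Function.ne_iff.mp hx.1
  have ha' : x a ≠ 0 := ha
  have hq := e.map_source hs
  have h1 := h0 e he (e z) hq ((he.par z hs).trans hz.2.1)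
  rw [sum_cw hZ hkj hN c he hq] at h1
  have h5 := cf_prop hZ hN (hpol_mulY (Ω := Ω) (pol_homog k d c) hkj) (hpol_pw a N) he hs hz
  rw [h1, zero_mul] at h5
  exact (mul_eq_zero.1 h5.symm).resolve_left (cf_pw_ne hZ hN he hs hz ha')

/-- linear independence of the frame on every fibre -/
theorem indep_cw (h : Dat D d M G H) (hΩD : Ω ⊆ D) {t : ℂ} (ht : t ∈ Ω) (hg : Good G H t)
    (hmon : G (t, Pi.single (Fin.last (1 + 2)) 1) ≠ 0) (c : Fin (nix k d) → ℂ) (hc : c ≠ 0) :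
    ∃ e ∈ (fam hZ rfl).A, ∃ q ∈ e.target, q.2 = t ∧ ∑ i, c i * cw Ω G H M j k d i e q ≠ 0 := by
  by_contra hcon
  push Not at hcon
  apply hc
  have h1 : ∀ z ∈ (Kc fun z => G (t, z)), H (t, z) ≠ 0 →
      MvPolynomial.eval z (pol k d c) = 0 := by
    intro z hz hHz
    obtain ⟨Y, hY⟩ : ∃ Y : ℂ, Y ^ M = H (t, z) := ⟨_, Complex.cpow_nat_inv_pow _ h.hM.ne'⟩
    have hx : snc z Y ∈ KZ G H M t :=
      mapsTo_snc (show (z, Y) ∈ H863.Cyc (Kc fun z => G (t, z)) (fun z => H (t, z)) M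
        from ⟨hz, hY⟩)
    have h2 := eval_eq_zero' hZ hkj hN ht c hcon hx
    rw [ini_snc, lst_snc] at h2
    have hY0 : Y ≠ 0 := by
      rintro rfl
      rw [zero_pow h.hM.ne'] at hY
      exact hHz hY.symm
    exact (mul_eq_zero.1 h2).resolve_right (pow_ne_zero _ hY0)
  have h2 : ∀ z ∈ (Kc fun z => G (t, z)), MvPolynomial.eval z (pol k d c) = 0 := by
    intro z hz
    have h3 := dense_t h (hΩD ht) hg z hz
    have h4 : IsClosed {z : VN (1 + 3) | MvPolynomial.eval z (pol k d c) = 0} :=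
      isClosed_eq (H845.differentiable_eval (pol k d c)).continuous continuous_const
    exact closure_minimal (fun z hz => h1 z hz.1 hz.2) h4 h3
  have h3 : pol k d c = 0 := by
    refine H845.normal_unique (h.differentiable (hΩD ht)) (fun c z => h.homG t (hΩD ht) c z) hmon
      (h.reg' (hΩD ht)) (pol_support k d c) (A' := 0) (by simp) fun z hz => ?_
    rw [h2 z hz, map_zero]
  funext i
  rw [← coeff_pol k d c i, h3]
  simp

omit hkj in
/-- functions on the cone with the character `ζ ^ j` are combinations of the frame -/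
theorem exists_pol (h : Dat D d M G H) (hΩD : Ω ⊆ D) {t : ℂ} (ht : t ∈ Ω) (hg : Good G H t)
    (hmon : G (t, Pi.single (Fin.last (1 + 2)) 1) ≠ 0) {ζ : ℂ} (hζ : IsPrimitiveRoot ζ M)
    (hj : j < M) (hkj : k + j = N) {f : VN (2 + 3) → ℂ} (hf : LocAn (Kt (gZ G H M) t) f)
    (hhom : ∀ c : ℂ, c ≠ 0 → ∀ x ∈ Kt (gZ G H M) t, f (c • x) = c ^ N * f x)
    (heig : ∀ x ∈ Kt (gZ G H M) t, f (dlin ζ x) = ζ ^ j * f x) :
    ∃ c : Fin (nix k d) → ℂ, ∀ x ∈ Kt (gZ G H M) t, f x = mulY (Qm (pol k d c)) j (t, x) := by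
  obtain ⟨A, hA, hs, hAe⟩ := eig_form h (hΩD ht) hg hmon hζ hj (by omega : j ≤ N) hf hhom heig
  have hk : N - j = k := by omega
  rw [hk] at hA
  refine ⟨fun i => MvPolynomial.coeff (mon k d i) A, fun x hx => ?_⟩
  rw [← eq_pol hA hs]
  exact hAe x hx

omit hkj in
/-- every holomorphic 2-form on a fibre, of character `ζ ^ (1 + j)`, is a combination of the
frame -/
theorem span_cw (h : Dat D d M G H) (hΩD : Ω ⊆ D) {t : ℂ} (ht : t ∈ Ω) (hg : Good G H t)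
    (hmon : G (t, Pi.single (Fin.last (1 + 2)) 1) ≠ 0) {ζ : ℂ} (hζ : IsPrimitiveRoot ζ M)
    (hζ0 : ζ ≠ 0) (hζM : ζ ^ M = 1)
    (hp : ∀ z, (fam hZ rfl).p (dk hZ hζ0 hζM z) = (fam hZ rfl).p z)
    (hj : j < M) (hkj : k + j = N) {hh : Chart 2 ((fam hZ rfl).Fib t) → Cm 2 → ℂ}
    (hh2 : IsHol2 (Z := (fam hZ rfl).Fib t) hh)
    (hχ : ∀ φ ∈ atlas (Cm 2) ((fam hZ rfl).Fib t), ∀ w ∈ φ.target,
      hh φ w = ζ ^ (1 + j) * hh ((fibH (dk hZ hζ0 hζM) hp t).transOpenPartialHomeomorph φ) w) :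
    ∃ c : Fin (nix k d) → ℂ, ∀ φ ∈ atlas (Cm 2) ((fam hZ rfl).Fib t), ∀ w ∈ φ.target,
      hh φ w = ∑ i, c i * H39.res (fam hZ rfl) t (cw Ω G H M j k d i) φ w := by
  obtain ⟨f, hf1, hf2, hf3⟩ := exists_fn hZ ht hN hh2
  have heig : ∀ x ∈ Kt (gZ G H M) t, f (dlin ζ x) = ζ ^ j * f x := by
    intro x hx
    have h1 := fn_deck (S := dS ζ hζ0) ht hN hf3 (H863.isDeck_dS hζ0 hζM)
      (by rw [H863.endM_dS]; exact hζ0) hp hχ hx
    rw [H863.endM_dS] at h1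
    have h2 : dS ζ hζ0 x = dlin ζ x := rfl
    rw [h2] at h1
    rw [h1, pow_add, pow_one]
    field_simp
  obtain ⟨c, hc⟩ := exists_pol hZ hN h hΩD ht hg hmon hζ hj hkj hf1 hf2 heig
  refine ⟨c, fun φ hφ w hw => ?_⟩
  have h1 : ∃ e, IsFC (fam hZ rfl) t φ e := mem_atlas_fib.mp hφ
  have h2 := isFC_up φ h1
  have h3 : ∀ i, H39.res (fam hZ rfl) t (cw Ω G H M j k d i) φ w =
      cw Ω G H M j k d i (up φ h1) (w, t) := by
    intro i
    rw [H39.res, dif_pos h1]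
  simp only [h3]
  rw [sum_cw hZ hkj hN c h2.mem (h2.mem_target hw)]
  exact eq_cf hN hf3 (hpol_mulY (pol_homog k d c) hkj) hc h2 hw

omit hkj in
/-- a family of holomorphic 2-forms `P w` of character `ζ ^ (1 + j)` is, on every fibre, a
combination of the frame -/
theorem mem_cw (h : Dat D d M G H) (hΩD : Ω ⊆ D) {t : ℂ} (ht : t ∈ Ω) (hg : Good G H t)
    (hmon : G (t, Pi.single (Fin.last (1 + 2)) 1) ≠ 0) {ζ : ℂ} (hζ : IsPrimitiveRoot ζ M)
    (hj : j < M) (hkj : k + j = N) {P : ℂ × VN (2 + 3) → ℂ} (hP : HPol Ω P N)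
    (heig : ∀ x ∈ Kt (gZ G H M) t, P (t, dlin ζ x) = ζ ^ j * P (t, x)) :
    ∃ c : Fin (nix k d) → ℂ, ∀ e ∈ (fam hZ rfl).A, ∀ q ∈ e.target, q.2 = t →
      cf P e q = ∑ i, c i * cw Ω G H M j k d i e q := by
  obtain ⟨c, hc⟩ := exists_pol hZ hN h hΩD ht hg hmon hζ hj hkj (locAn_hpol hP ht)
    (fun a ha x _ => hP.hom t ht a ha x) heig
  refine ⟨c, fun e he q hq hqt => ?_⟩
  rw [sum_cw hZ hkj hN c he hq]
  exact cf_congr_fib hZ hN hP (hpol_mulY (pol_homog k d c) hkj) hc he hq hqt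

end cyc

/-- **E3.** The geometric input over the family of cyclic covers `Y ^ M = H` of the surfaces
`G = 0`, `χ = ζ ^ (1 + j)`. -/
theorem geoZ {D Ω : Set ℂ} {d M : ℕ} {G H : ℂ × VN (1 + 3) → ℂ} (h : Dat D d M G H) (hΩD : Ω ⊆ D)
    (hZ : CIF Ω (gZ G H M) ![d, M]) (hg : ∀ t ∈ Ω, Good G H t)
    (hmon : ∀ t ∈ Ω, G (t, Pi.single (Fin.last (1 + 2)) 1) ≠ 0) {ζ : ℂ} (hζ : IsPrimitiveRoot ζ M)
    (hζ0 : ζ ≠ 0) (hζM : ζ ^ M = 1) {N j j' k k' : ℕ} (hN : N + (2 + 3) = ∑ k, ![d, M] k)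
    (hjj : j + j' + 2 = M) (hkj : k + j = N) (hkj' : k' + j' = N) {P : ℂ × VN (2 + 3) → ℂ}
    (hP : HPol Ω P N)
    (hPe : ∀ t ∈ Ω, ∀ x ∈ Kt (gZ G H M) t, P (t, dlin ζ x) = ζ ^ j * P (t, x))
    (hPc : HCh (fam hZ rfl) (dk hZ hζ0 hζM) (ζ ^ (1 + j)) (cf P)) :
    Geo (fam hZ rfl) (dk hZ hζ0 hζM) M (ζ ^ (1 + j)) (cw Ω G H M j k d) (cw Ω G H M j' k' d)
      (cf P) := by
  have hdeck : H39.IsDeck (fam hZ rfl) (dk hZ hζ0 hζM) :=
    ⟨fun z => H863.deck_t hZ (H863.isDeck_dS hζ0 hζM) z,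
      fun e he => H863.isPC_deck hZ (H863.isDeck_dS hζ0 hζM) he⟩
  have hcj : conj (ζ ^ (1 + j)) = ζ ^ (1 + j') := by
    have h1 : conj (ζ ^ (1 + j)) * ζ ^ (1 + j) = 1 := by
      refine root_conj h.hM ?_
      rw [← pow_mul, mul_comm, pow_mul, hζM, one_pow]
    have h2 : ζ ^ (1 + j') * ζ ^ (1 + j) = 1 := by
      rw [← pow_add, show 1 + j' + (1 + j) = M by omega, hζM]
    have h3 : ζ ^ (1 + j) ≠ 0 := pow_ne_zero _ hζ0
    exact mul_right_cancel₀ h3 (h1.trans h2.symm)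
  refine
    { deck := hdeck
      m_pos := h.hM
      iter := fun z => H863.dk_iter hZ hζ0 hζM z
      pow := by rw [← pow_mul, mul_comm, pow_mul, hζM, one_pow]
      ne_one := ?_
      conn := fun t ht => H863.connected_fib h hΩD hZ ht (hg t ht) (hmon t ht)
      kahler := fun t _ => ⟨_, H265.isKahler_cifMet hZ rfl t⟩
      hw := fun i => hcf_cw hZ hkj hN i
      hwc := fun i => hch_cw hZ hkj hN hζ0 hζM i
      hu := fun i => hcf_cw hZ hkj' hN i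
      huc := fun i => by rw [hcj]; exact hch_cw hZ hkj' hN hζ0 hζM i
      hη := ⟨(isHolCf_cf hZ hP hN).hol, (isHolCf_cf hZ hP hN).change⟩
      hηc := hPc
      iw := fun t ht c hc => indep_cw hZ hkj hN h hΩD ht (hg t ht) (hmon t ht) c hc
      iu := fun t ht c hc => indep_cw hZ hkj' hN h hΩD ht (hg t ht) (hmon t ht) c hc
      mη := fun t ht => mem_cw hZ hN h hΩD ht (hg t ht) (hmon t ht) hζ (by omega) hkj hP
        (hPe t ht)
      sw := fun t ht hh hh2 hc => span_cw hZ hN h hΩD ht (hg t ht) (hmon t ht) hζ hζ0 hζM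
        hdeck.p_eq (by omega) hkj hh2 hc
      su := fun t ht hh hh2 hc => span_cw hZ hN h hΩD ht (hg t ht) (hmon t ht) hζ hζ0 hζM
        hdeck.p_eq (by omega) hkj' hh2 (by rw [hcj] at hc; exact hc) }
  intro h1
  have h2 := hζ.dvd_of_pow_eq_one (1 + j) h1
  have h3 := Nat.le_of_dvd (by omega) h2
  omega

end Vale.Agent.P298.H723
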