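import Vale.Agent.P267.H283.Facts
import Vale.Agent.P267.H661.Prim
import Vale.Agent.P267.H928.Int.FLLin

/-!
# P298, S1-GEO-R3: Hodge index on a compact Kähler surface, from the solution of `∂̄a = b`

`hodge_index_of`: the intersection form is `≤ 0` on closed forms whose `(2,0)` and `(0,2)` parts
are exact for `∂`, `∂̄`, and which are orthogonal to the Kähler form.
-/

set_option linter.unusedSectionVars false

open scoped Manifold ContDiff ComplexConjugate Matrix ComplexOrder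
open MeasureTheory Set

noncomputable section

namespace Vale.Agent.P298.H723

open Vale.Agent.P267.FL Vale.Agent.P267.H469
open Vale.Agent.P267.BlockC (pair ExactTwo pair_add pair_smul smooth_add smooth_smul closed_add
  closed_smul)
open Vale.Agent.P267.H661 (gfun exists_trh_ddb_eq gfun_add gfun_smul gfun_const reg_trh
  wedge_prim gfun_ddb)

variable {Z : Type} [TopologicalSpace Z] [ChartedSpace C2 Z]

/-- the form with coefficients `w` -/
def kf (w : Z → Matrix (Fin 2) (Fin 2) ℂ) : TwoF Z := ⟨0, w, 0⟩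

theorem wedge_comm' (F G : TwoF Z) : F.wedge G = G.wedge F := by
  funext x
  simp only [TwoF.wedge]
  ring

theorem pair_comm' (F G : TwoF Z) : pair F G = pair G F := by
  rw [pair, pair, wedge_comm']

theorem wedge_kf {w : Z → Matrix (Fin 2) (Fin 2) ℂ} (hw : ∀ x, (w x).PosDef) (F : TwoF Z) (x : Z) :
    F.wedge (kf w) x = -((w x).det * trh w F.f11 x) := by
  have hd : (w x).det ≠ 0 := (hw x).det_pos.ne'
  have h1 : (w x).det * trh w F.f11 x = ((w x).adjugate * F.f11 x).trace := by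
    rw [trh, Matrix.inv_def, Matrix.smul_mul, Matrix.trace_smul, smul_eq_mul, ← mul_assoc,
      Ring.inverse_eq_inv', mul_inv_cancel₀ hd, one_mul]
  rw [h1, Matrix.adjugate_fin_two]
  simp only [TwoF.wedge, kf, Pi.zero_apply, Matrix.trace_fin_two, Matrix.mul_apply,
    Fin.sum_univ_two, Matrix.of_apply, Matrix.cons_val', Matrix.cons_val_zero,
    Matrix.cons_val_one, Matrix.cons_val_fin_one, Matrix.empty_val']
  ring

section cl

variable [IsManifold 𝓘(ℂ, C2) ω Z]

theorem smooth_cjF {F : TwoF Z} (hF : F.Smooth) : (cjF F).Smooth :=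
  ⟨r2cj hF.s02, r11cj hF.s11, r0cj' hF.s20⟩

theorem closed_cjF {F : TwoF Z} (hF : F.Closed) : (cjF F).Closed := by
  constructor
  · intro x j
    rw [d21_cj]
    simp [cj1, hF.2 x j]
  · intro x j
    rw [d12_cj]
    simp [cj1, hF.1 x j]

/-- conjugate of a one-form -/
def cjO (A : OneF Z) : OneF Z := ⟨cj1 A.f01, cj1 A.f10⟩

theorem smooth_cjO {A : OneF Z} (hA : A.Smooth) : (cjO A).Smooth := ⟨r1cj hA.s01, r10cj hA.s10⟩

theorem cjF_d {A : OneF Z} (hA : A.Smooth) : cjF A.d = (cjO A).d := by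
  apply TwoF.ext
  · change cj0 (dbar1 0 A.f01) = del10 (cj1 A.f01)
    rw [del10_cj]
  · change cj11 (del1 A.f01 + dbar10 A.f10) = del1 (cj1 A.f10) + dbar10 (cj1 A.f01)
    rw [cj11_add, del1_cj, dbar10_cj, add_comm]
  · change cj0 (del10 A.f10) = dbar1 0 (cj1 A.f10)
    rw [dbar1_cj]

theorem cjF_add (F G : TwoF Z) : cjF (F + G) = cjF F + cjF G := by
  apply TwoF.ext
  · exact cj0_add _ _
  · exact cj11_add _ _
  · exact cj0_add _ _

theorem exact_cjF {F : TwoF Z} (hF : ExactTwo F) : ExactTwo (cjF F) := by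
  obtain ⟨A, hA, rfl⟩ := hF
  exact ⟨cjO A, smooth_cjO hA, (cjF_d hA).symm⟩

theorem exact_smooth {F : TwoF Z} (hF : ExactTwo F) : F.Smooth := by
  obtain ⟨A, hA, rfl⟩ := hF
  exact Vale.Agent.P267.H857.smooth_d hA

theorem exact_closed {F : TwoF Z} (hF : ExactTwo F) : F.Closed := by
  obtain ⟨A, hA, rfl⟩ := hF
  exact Vale.Agent.P267.H857.closed_d hA

variable [T2Space Z] [CompactSpace Z]

theorem pair_exact_left {E G : TwoF Z} (hE : ExactTwo E) (hG : G.Smooth) (hG' : G.Closed) :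
    pair E G = 0 := by
  obtain ⟨A, hA, rfl⟩ := hE
  exact intX_dA_wedge hA.c1 hG.c1 hG' isCompact_univ fun x hx => absurd (mem_univ x) hx

theorem pair_exact_right {E G : TwoF Z} (hE : ExactTwo E) (hG : G.Smooth) (hG' : G.Closed) :
    pair G E = 0 := by
  rw [pair_comm', pair_exact_left hE hG hG']

theorem pair_add_left {F F' G : TwoF Z} (hF : F.Smooth) (hF' : F'.Smooth) (hG : G.Smooth) :
    pair (F + F') G = pair F G + pair F' G :=
  pair_add hF hF' hG (HasCompactSupport.of_compactSpace _) (HasCompactSupport.of_compactSpace _)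

/-- the pairing only depends on the classes -/
theorem pair_shift {F G E E' : TwoF Z} (hF : F.Smooth) (hF' : F.Closed) (hG : G.Smooth)
    (hG' : G.Closed) (hE : ExactTwo E) (hE' : ExactTwo E') :
    pair (F + E) (G + E') = pair F G := by
  have s1 := exact_smooth hE
  have s2 := exact_smooth hE'
  have c2 := exact_closed hE'
  rw [pair_add_left hF s1 (smooth_add hG s2),
    pair_exact_left hE (smooth_add hG s2) (closed_add hG s2 hG' c2), add_zero, pair_comm',
    pair_add_left hG s2 hF, pair_exact_left hE' hF hF', add_zero, pair_comm']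

/-- the Hermitian form is unchanged -/
theorem herm_shift {F E : TwoF Z} (hF : F.Smooth) (hF' : F.Closed) (hE : ExactTwo E) :
    pair (F + E) (cjF (F + E)) = pair F (cjF F) := by
  rw [cjF_add]
  exact pair_shift hF hF' (smooth_cjF hF) (closed_cjF hF') hE (exact_cjF hE)

theorem exact_ddb {u : Z → ℂ} (hu : Reg0 ∞ 0 u) : ExactTwo (⟨0, ddb u, 0⟩ : TwoF Z) := by
  refine ⟨⟨0, dbar0 0 u⟩, ⟨(S10 Z).zero_mem, reg_dbar0 hu⟩, ?_⟩
  have hz : Reg10 ∞ (0 : Z → Fin 2 → ℂ) := (S10 Z).zero_mem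
  have h1 : del10 (0 : Z → Fin 2 → ℂ) = 0 := by
    have := del10_smul hz 0
    simpa using this
  have h2 : dbar10 (0 : Z → Fin 2 → ℂ) = 0 := by
    have := dbar10_smul hz 0
    simpa using this
  apply TwoF.ext
  · exact h1
  · change del1 (dbar0 0 u) + dbar10 (0 : Z → Fin 2 → ℂ) = ddb u
    rw [h2, add_zero]
    rfl
  · exact dbar1_dbar0 hu

variable [ConnectedSpace Z] {w : Z → Matrix (Fin 2) (Fin 2) ℂ}

theorem smooth_kf (hw : IsHerm w) : (kf w).Smooth :=
  ⟨(S20 Z).zero_mem, hw.smooth, (S02 Z).zero_mem⟩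

theorem det_pos_real (hw : IsHerm w) (x : Z) : ((w x).det.re : ℂ) = (w x).det ∧
    0 < (w x).det.re := by
  have h := (hw.posDef x).det_pos
  rw [Complex.lt_def] at h
  refine ⟨Complex.ext rfl ?_, h.1⟩
  simpa using h.2

theorem pair_kf_kf (hw : IsHerm w) : 0 < -(pair (kf w) (kf w)).re ∧ pair (kf w) (kf w) ≠ 0 := by
  have h1 : (kf w).wedge (kf w) = fun x => -(((2 * (w x).det.re : ℝ)) : ℂ) := by
    funext x
    rw [wedge_kf hw.posDef]
    have h2 : trh w (kf w).f11 x = 2 := by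
      rw [trh, kf, Matrix.nonsing_inv_mul _ (hw.posDef x).det_pos.ne'.isUnit]
      simp
    rw [h2]
    push_cast
    rw [(det_pos_real hw x).1]
    ring
  have h3 : Reg2 ∞ 1 ((kf w).wedge (kf w)) := wedge_mem (smooth_kf hw) (smooth_kf hw)
  have h4 : Reg2 0 1 fun x => (((2 * (w x).det.re : ℝ)) : ℂ) := by
    have h5 := (h3.zero_order).const_smul (-1)
    rw [h1] at h5
    simpa using h5
  obtain ⟨x⟩ : Nonempty Z := inferInstance
  have h6 := intX_re_pos h4 (HasCompactSupport.of_compactSpace _)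
    (fun x => (mul_pos two_pos (det_pos_real hw x).2).le) (x := x)
    (mul_pos two_pos (det_pos_real hw x).2).ne'
  have h7 : pair (kf w) (kf w) = -intX fun x => (((2 * (w x).det.re : ℝ)) : ℂ) := by
    rw [pair, h1]
    exact intX_neg h4 (HasCompactSupport.of_compactSpace _)
  have h8 : 0 < -(pair (kf w) (kf w)).re := by
    rw [h7, Complex.neg_re, neg_neg]
    exact h6
  refine ⟨h8, fun h0 => ?_⟩
  rw [h0] at h8
  simp at h8

/-- a form orthogonal to the Kähler form has a trace of the form `tr ∂∂̄u` -/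
theorem exists_trace (hw : IsHerm w) (hwc : (kf w).Closed) {B : Z → Matrix (Fin 2) (Fin 2) ℂ}
    (hB : Reg11 ∞ B) (h0 : pair ⟨0, B, 0⟩ (kf w) = 0) :
    ∃ u : Z → ℂ, Reg0 ∞ 0 u ∧ trh w (ddb u) = trh w B := by
  have hf : Reg0 ∞ 0 (trh w B) := reg_trh hw hB
  set f : Z → ℂ := trh w B with hfd
  set c : ℂ := gfun hw f with hc
  -- `B - c w` has trace in the image
  have hf' : Reg0 ∞ 0 (f + fun _ => -c) := by
    refine (S0 Z).add_mem hf ?_
    intro e he
    exact contDiffOn_const.congr fun z _ => by simp [loc0]; rfl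
  have h1 : gfun hw (f + fun _ => -c) = 0 := by
    have := gfun_add hw (s := f) (t := fun _ => -c) (Vale.Agent.P267.H661.reg0_iff.1 hf)
      (fun e he x hx => contDiffAt_const)
    rw [gfun_const] at this
    have h2 : (f + fun _ => -c) = fun x => f x + (fun _ => -c) x := rfl
    rw [h2, this, ← hc, add_neg_cancel]
  obtain ⟨u, hu, hu'⟩ := exists_trh_ddb_eq hw (Vale.Agent.P267.H661.reg0_iff.1 hf') h1
  have hu0 : Reg0 ∞ 0 u := Vale.Agent.P267.H661.reg0_iff.2 hu
  -- integrate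
  have hE : pair (⟨0, ddb u, 0⟩ : TwoF Z) (kf w) = 0 :=
    pair_exact_left (exact_ddb hu0) (smooth_kf hw) hwc
  have hSB : (⟨0, B, 0⟩ : TwoF Z).Smooth := ⟨(S20 Z).zero_mem, hB, (S02 Z).zero_mem⟩
  have hd : pair (⟨0, ddb u, 0⟩ : TwoF Z) (kf w) =
      pair (⟨0, B, 0⟩ + (-(c / 2)) • kf w) (kf w) := by
    rw [pair, pair]
    congr 1
    funext x
    rw [wedge_kf hw.posDef, wedge_kf hw.posDef]
    congr 2
    change trh w (ddb u) x = trh w (B + (-(c / 2)) • w) x
    rw [hu']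
    have h2 : trh w (B + (-(c / 2)) • w) x = trh w B x + (-(c / 2)) * trh w w x := by
      simp only [trh, Pi.add_apply, Pi.smul_apply, Matrix.mul_add, Matrix.trace_add,
        Matrix.mul_smul, Matrix.trace_smul, smul_eq_mul]
    have h3 : trh w w x = 2 := by
      rw [trh, Matrix.nonsing_inv_mul _ (hw.posDef x).det_pos.ne'.isUnit]
      simp
    rw [h2, h3]
    simp only [Pi.add_apply, hfd]
    ring
  rw [hE, pair_add_left hSB (smooth_smul _ (smooth_kf hw)) (smooth_kf hw), h0, zero_add,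
    pair_smul _ (smooth_kf hw) (smooth_kf hw) (HasCompactSupport.of_compactSpace _)] at hd
  have hc0 : c = 0 := by
    have h5 := mul_eq_zero.1 hd.symm
    rcases h5 with h5 | h5
    · rw [neg_eq_zero, div_eq_zero_iff] at h5
      rcases h5 with h5 | h5
      · exact h5
      · norm_num at h5
    · exact absurd h5 (pair_kf_kf hw).2
  refine ⟨u, hu0, ?_⟩
  rw [hu', hc0]
  funext x
  simp

/-- a form of type `(1,1)` with vanishing trace -/
theorem herm_prim (hw : IsHerm w) {B : Z → Matrix (Fin 2) (Fin 2) ℂ} (hB : Reg11 ∞ B)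
    (h0 : ∀ x, trh w B x = 0) : (pair ⟨0, B, 0⟩ (cjF ⟨0, B, 0⟩)).re ≤ 0 := by
  have hcj : cjF (⟨0, B, 0⟩ : TwoF Z) = ⟨0, cj11 B, 0⟩ := by
    apply TwoF.ext
    · funext x; simp [cjF, cj0]
    · rfl
    · funext x; simp [cjF, cj0]
  have hSB : (⟨0, B, 0⟩ : TwoF Z).Smooth := ⟨(S20 Z).zero_mem, hB, (S02 Z).zero_mem⟩
  have hSC : (⟨0, cj11 B, 0⟩ : TwoF Z).Smooth := ⟨(S20 Z).zero_mem, r11cj hB, (S02 Z).zero_mem⟩
  have h3 : Reg2 ∞ 1 (TwoF.wedge (⟨0, B, 0⟩ : TwoF Z) ⟨0, cj11 B, 0⟩) := wedge_mem hSB hSC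
  set b : Z → ℂ := TwoF.wedge (⟨0, B, 0⟩ : TwoF Z) ⟨0, cj11 B, 0⟩ with hb
  have h1 : b = fun x => -(((-(b x).re : ℝ)) : ℂ) := by
    funext x
    have h4 := wedge_prim (hw.posDef x) (h0 x)
    apply Complex.ext
    · simp
    · simpa using h4.1
  have h4 : Reg2 0 1 fun x => (((-(b x).re : ℝ)) : ℂ) := by
    have h5 := (h3.zero_order).const_smul (-1)
    rw [h1] at h5
    simpa using h5
  have h5 := intX_re_nonneg h4 (HasCompactSupport.of_compactSpace _) fun x => by
    have h4 := wedge_prim (hw.posDef x) (h0 x)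
    have := h4.2.1
    linarith
  have h7 : pair (⟨0, B, 0⟩ : TwoF Z) ⟨0, cj11 B, 0⟩ = -intX fun x => (((-(b x).re : ℝ)) : ℂ) := by
    rw [pair, ← hb]
    conv_lhs => rw [h1]
    exact intX_neg h4 (HasCompactSupport.of_compactSpace _)
  rw [hcj, h7, Complex.neg_re]
  linarith

/-- **Hodge index**, the `(2,0)` and `(0,2)` parts being exact for `∂`, `∂̄`. -/
theorem hodge_index_of (hw : IsHerm w) (hwc : (kf w).Closed) {F : TwoF Z} (hs : F.Smooth)
    (hc : F.Closed) {c a : Z → Fin 2 → ℂ} (hcr : Reg10 ∞ c) (hcF : del10 c = F.f20)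
    (har : Reg1 ∞ 0 a) (haF : dbar1 0 a = F.f02) (h11 : pair F (kf w) = 0) :
    (pair F (cjF F)).re ≤ 0 := by
  set θ : OneF Z := ⟨c, a⟩ with hθ
  have hθs : θ.Smooth := ⟨hcr, har⟩
  set E : TwoF Z := (-1 : ℂ) • θ.d with hE
  have hEe : ExactTwo E := Vale.Agent.P267.BlockC.exact_smul _ ⟨θ, hθs, rfl⟩
  set B : Z → Matrix (Fin 2) (Fin 2) ℂ := (F + E).f11 with hB
  have hF1 : F + E = ⟨0, B, 0⟩ := by
    apply TwoF.ext
    · change F.f20 + (-1 : ℂ) • del10 c = 0
      rw [hcF]; simp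
    · rfl
    · change F.f02 + (-1 : ℂ) • dbar1 0 a = 0
      rw [haF]; simp
  have hS1 : (F + E).Smooth := smooth_add hs (exact_smooth hEe)
  have hC1 : (F + E).Closed := closed_add hs (exact_smooth hEe) hc (exact_closed hEe)
  have hBr : Reg11 ∞ B := hS1.s11
  have h1 : pair (⟨0, B, 0⟩ : TwoF Z) (kf w) = 0 := by
    rw [← hF1, pair_add_left hs (exact_smooth hEe) (smooth_kf hw), h11,
      pair_exact_left hEe (smooth_kf hw) hwc, add_zero]
  obtain ⟨u, hu, hu'⟩ := exists_trace hw hwc hBr h1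
  set E2 : TwoF Z := (-1 : ℂ) • ⟨0, ddb u, 0⟩ with hE2
  have hE2e : ExactTwo E2 := Vale.Agent.P267.BlockC.exact_smul _ (exact_ddb hu)
  have hF2 : F + E + E2 = ⟨0, B + (-1 : ℂ) • ddb u, 0⟩ := by
    rw [hF1]
    apply TwoF.ext
    · change (0 : Z → ℂ) + (-1 : ℂ) • (0 : Z → ℂ) = 0
      simp
    · rfl
    · change (0 : Z → ℂ) + (-1 : ℂ) • (0 : Z → ℂ) = 0
      simp
  rw [← herm_shift hs hc hEe, ← herm_shift hS1 hC1 hE2e, hF2]
  refine herm_prim hw ?_ fun x => ?_
  · have := (smooth_add hS1 (exact_smooth hE2e)).s11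
    rwa [hF2] at this
  · have h2 : trh w (B + (-1 : ℂ) • ddb u) x = trh w B x + (-1) * trh w (ddb u) x := by
      simp only [trh, Pi.add_apply, Pi.smul_apply, Matrix.mul_add, Matrix.trace_add,
        Matrix.mul_smul, Matrix.trace_smul, smul_eq_mul]
    rw [h2, hu']
    ring

end cl

end Vale.Agent.P298.H723
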