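import Vale.Agent.P267.H682.RRTriv
import Vale.Agent.P267.H439.DictD
import Vale.Agent.P267.H439.PSC
import Vale.Agent.P267.H955.PSEx
import Vale.Agent.P267.H983.SerMain
import Vale.Agent.P267.H983.FrOf

/-!
# P298, S1-GEO-R3: a `(0,2)`-form orthogonal to the holomorphic two-forms is `∂̄`-exact

`exact02`, from the Serre duality of P267 (helpers 983, 439, 955, 682).
-/

set_option linter.unusedSectionVars false

open scoped Manifold ContDiff ComplexConjugate Matrix
open Set Filter Topology MeasureTheory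

noncomputable section

namespace Vale.Agent.P298.H723

open Vale.Agent.P267 Vale.Agent.P267.FL Vale.Agent.P267.H983
open Vale.Agent.P267.RR (FinAt SB Bun Kern PS A0 A1 A2 D0 D1 OX)
open Vale.Agent.P267.H682 (up dw up_apply dw_apply up_dw dw_up reg0_clm reg1_clm reg2_clm
  lb_eq_OX isHol_OX sec_OX sec1_OX db0_OX db1_OX)

variable {X : Type} [TopologicalSpace X] [ChartedSpace C2 X] [IsManifold 𝓘(ℂ, C2) ω X]

/-- the frame of the trivial bundle -/
abbrev tf (A : FinAt X) : H439.LFr A (LB.triv (X := X) (0 : Fin 1)) 0 := H439.trivFr A 0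

theorem isHol_triv : (LB.triv (X := X) (0 : Fin 1)).IsHol 0 := by
  rw [lb_eq_OX (LB.triv (X := X) (0 : Fin 1))]
  exact isHol_OX

/-- the trivial bundle and `K` are dual to each other -/
theorem sd_0 (A : FinAt X) : SD ((tf A).bun 0) ((tf A).bun 1) 1 := by
  refine ⟨by simp, fun a b z hz => ?_⟩
  rw [H439.trivFr_E_zero, H439.trivFr_E]
  simp only [Matrix.transpose_one, Matrix.mul_one, Matrix.mul_smul, smul_smul, zpow_neg,
    zpow_one]
  rw [mul_inv_cancel₀ (FinAt.J_det_ne hz), one_smul]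

theorem cfv_single (v : EuclideanSpace ℂ (Fin 1)) :
    H439.cfv (EuclideanSpace.single (0 : Fin 1) (1 : ℂ)) v = v 0 := by
  simp [H439.cfv]

theorem c2_tf (A : FinAt X) {κ : ℤ} {b : X → ℂ} {i : Fin A.N} {z : C2} (hz : z ∈ A.O i)
    (k : Fin 1) : (tf A).c2 κ (fun x => up (b x)) i z k = loc2 κ (A.e i) b z := by
  rw [(tf A).c2_of hz]
  have h : (fun (y : X) => H439.cfv ((tf A).t i y) (up (b y))) = b := by
    funext y
    exact cfv_single _
  rw [h]

theorem c0_tf (A : FinAt X) {κ : ℤ} {b : X → ℂ} {i : Fin A.N} {z : C2} (hz : z ∈ A.O i)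
    (k : Fin 1) : (tf A).c0 κ (fun x => up (b x)) i z k = loc0 κ (A.e i) b z := by
  rw [(tf A).c0_of hz]
  have h : (fun (y : X) => H439.cfv ((tf A).t i y) (up (b y))) = b := by
    funext y
    exact cfv_single _
  rw [h]

theorem mem_A2_up {κ : ℤ} {b : X → ℂ} (hb : Reg2 ∞ κ b) :
    (fun x => up (b x)) ∈ A2 (LB.triv (X := X) (0 : Fin 1)) κ := by
  refine ⟨reg2_clm up hb, ?_⟩
  rw [lb_eq_OX (LB.triv (X := X) (0 : Fin 1))]
  exact sec_OX _

theorem mem_A0_up {κ : ℤ} {b : X → ℂ} (hb : Reg0 ∞ κ b) :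
    (fun x => up (b x)) ∈ A0 (LB.triv (X := X) (0 : Fin 1)) κ := by
  refine ⟨reg0_clm up hb, ?_⟩
  rw [lb_eq_OX (LB.triv (X := X) (0 : Fin 1))]
  exact sec_OX _

theorem exists_up0 {κ : ℤ} (η : A0 (LB.triv (X := X) (0 : Fin 1)) κ) :
    ∃ (a : X → ℂ) (ha : Reg0 ∞ κ a), η = ⟨fun x => up (a x), mem_A0_up ha⟩ := by
  refine ⟨fun x => dw (η.1 x), reg0_clm dw η.2.1, Subtype.ext ?_⟩
  funext x
  exact (up_dw _).symm

theorem exists_up1 {κ : ℤ} (η : A1 (LB.triv (X := X) (0 : Fin 1)) κ) :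
    ∃ (a : X → Fin 2 → ℂ) (ha : Reg1 ∞ κ a), η.1 = fun x j => up (a x j) := by
  refine ⟨fun x j => dw (η.1 x j), reg1_clm dw η.2.1, ?_⟩
  funext x j
  exact (up_dw _).symm

theorem db1_up {κ : ℤ} {w : X → Fin 2 → ℂ} (hw : Reg1 ∞ κ w) :
    (LB.triv (X := X) (0 : Fin 1)).db1 0 κ (fun x j => up (w x j)) =
      fun x => up (dbar1 κ w x) := by
  rw [lb_eq_OX (LB.triv (X := X) (0 : Fin 1)), db1_OX]
  funext x
  exact dbar1_clm up ((hw.at x).of_le (by simp))

theorem db0_up {κ : ℤ} {s : X → ℂ} (hs : Reg0 ∞ κ s) :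
    (LB.triv (X := X) (0 : Fin 1)).db0 0 κ (fun x => up (s x)) =
      fun x j => up (dbar0 κ s x j) := by
  rw [lb_eq_OX (LB.triv (X := X) (0 : Fin 1)), db0_OX]
  funext x j
  exact dbar0_clm up ((hs.at x).of_le (by simp)) j

theorem loc2_mul (e : Ch X) (η b : X → ℂ) (z : C2) :
    loc2 1 e (fun x => η x * b x) z = loc2 0 e b z * loc0 1 e η z := by
  simp only [loc0, loc2, smul_eq_mul, zpow_zero, zpow_one, one_mul]
  ring

theorem reg2_mul {b η : X → ℂ} (hb : Reg2 ∞ 0 b) (hη : Reg0 ∞ 1 η) :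
    Reg2 ∞ 1 fun x => η x * b x := by
  intro e he
  have h1 : loc2 1 e (fun x => η x * b x) = fun z => loc2 0 e b z * loc0 1 e η z :=
    funext fun z => loc2_mul e η b z
  rw [h1]
  exact (hb e he).mul (hη e he)

/-- the pairing is an integral over `X` -/
theorem pr_tf2 [CompactSpace X] [T2Space X] (A : FinAt X) {b η : X → ℂ}
    (hb : Reg2 ∞ 0 b) (hη : Reg0 ∞ 1 η) :
    intX (fun x => η x * b x) =
      4 * (sd_0 A).dp2.pr ((tf A).c2 0 fun x => up (b x)) ((tf A).c0 1 fun x => up (η x)) := by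
  rw [H439.intX_finAt A (reg2_mul hb hη), DP.pr_def]
  congr 1
  refine Finset.sum_congr rfl fun i _ => ?_
  refine integral_congr_ae (Eventually.of_forall fun z => ?_)
  simp only
  by_cases hz : z ∈ A.O i
  · have h1 : (sd_0 A).dp2.β ((tf A).c2 0 (fun x => up (b x)) i z)
        ((tf A).c0 1 (fun x => up (η x)) i z) =
        loc2 0 (A.e i) b z * loc0 1 (A.e i) η z := by
      change β0 1 _ _ = _
      rw [β0_apply]
      simp only [Matrix.one_mulVec, dotProduct, Finset.univ_unique,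
        Finset.sum_singleton, Fin.default_eq_zero, c2_tf A hz, c0_tf A hz]
    rw [h1, loc2_mul]
  · rw [show A.r i z = 0 from if_neg hz]
    simp

/-- **A smooth `(0,2)`-form orthogonal to the holomorphic two-forms is `∂̄`-exact.** -/
theorem exact02 [CompactSpace X] [T2Space X] {b : X → ℂ} (hb : Reg2 ∞ 0 b)
    (ho : ∀ η : X → ℂ, Reg0 ∞ 1 η → dbar0 1 η = 0 → intX (fun x => η x * b x) = 0) :
    ∃ a : X → Fin 2 → ℂ, Reg1 ∞ 0 a ∧ dbar1 0 a = b := by
  obtain ⟨A, -⟩ := H439.exists_finAt (X := X) (p := fun _ => True)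
    (fun x => ⟨univ, isOpen_univ, mem_univ x, trivial⟩) fun _ _ _ _ => trivial
  obtain ⟨P, -⟩ := H955.exists_PS ((tf A).bun 0)
  obtain ⟨C, hC⟩ := H439.exists_cplxOf P
  have hF : FR2 ((tf A).bun 0) := fr2_of C hC.i2 hC.d1
  set b' : ((tf A).bun 0).sb2.Sec := (tf A).eq2 0 ⟨_, mem_A2_up hb⟩ with hb'
  have h1 := ((sd_0 A).sl2 P hF b').2 (by
    intro η hη
    obtain ⟨s, hs, h2⟩ := exists_up0 (((tf A).eq0 1).symm η)
    have h3 : η = (tf A).eq0 1 ⟨fun x => up (s x), mem_A0_up hs⟩ := by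
      rw [← h2, LinearEquiv.apply_symm_apply]
    have h4 : dbar0 1 s = 0 := by
      rw [h3, ← (tf A).eq1_db0 1 isHol_triv, LinearEquiv.map_eq_zero_iff] at hη
      have h5 := congrArg Subtype.val hη
      rw [H439.d0L_coe, db0_up hs] at h5
      funext x j
      have h6 := congrArg dw (congrFun (congrFun h5 x) j)
      simpa using h6
    have h5 := pr_tf2 A hb hs
    rw [ho s hs h4] at h5
    have h6 := (mul_eq_zero.1 h5.symm).resolve_left (by norm_num)
    rw [h3]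
    exact h6)
  obtain ⟨w, hw⟩ := h1
  obtain ⟨v, rfl⟩ := ((tf A).eq1 0).surjective w
  rw [← (tf A).eq2_db1 0 isHol_triv] at hw
  have h2 := congrArg Subtype.val (((tf A).eq2 0).injective hw)
  rw [H439.d1L_coe] at h2
  obtain ⟨a, ha, h3⟩ := exists_up1 v
  refine ⟨a, ha, ?_⟩
  rw [h3, db1_up ha] at h2
  funext x
  have h4 := congrArg dw (congrFun h2 x)
  simpa using h4

end Vale.Agent.P298.H723
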