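import Vale.Agent.P298.H723.Comp
import Vale.Agent.P298.H723.HodgeA
import Vale.Agent.P298.H723.Serre2
import Vale.Agent.P272.K.INT.Global

/-!
# P298, S1-GEO-R3: from forms in charts to the forms of P267

`toF α`: the two-form with components those of the alternating forms `α e q`.
-/

set_option linter.unusedSectionVars false
set_option maxSynthPendingDepth 3

open scoped Manifold ContDiff ComplexConjugate Matrix ComplexOrder Topology
open MeasureTheory Set

noncomputable section

namespace Vale.Agent.P298.H723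

open Vale.Agent Vale.Agent.P267.FL Vale.Agent.P298.H39
open Vale.Agent.P267.H469 (cj0 cj1 cj11 cjF)

variable {Z : Type} [TopologicalSpace Z] [ChartedSpace C2 Z]

/-- smooth two-form given in the charts -/
structure IsF2 (α : Ch Z → C2 → BF) : Prop where
  smooth : ∀ e ∈ atlas C2 Z, ∀ q ∈ e.target, ContDiffAt ℝ ∞ (α e) q
  alt : ∀ e ∈ atlas C2 Z, ∀ q ∈ e.target, ∀ u v, α e q u v = -α e q v u
  change : ∀ e ∈ atlas C2 Z, ∀ e' ∈ atlas C2 Z, ∀ x ∈ e.source, x ∈ e'.source → ∀ u v,
    α e (e x) u v = α e' (e' x) (fderiv ℝ (fun q => e' (e.symm q)) (e x) u)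
      (fderiv ℝ (fun q => e' (e.symm q)) (e x) v)

/-- closed two-form given in the charts -/
def IsC2 (α : Ch Z → C2 → BF) : Prop :=
  ∀ e ∈ atlas C2 Z, ∀ q ∈ e.target, ∀ u v x : C2,
    fderiv ℝ (α e) q u v x - fderiv ℝ (α e) q v u x + fderiv ℝ (α e) q x u v = 0

/-- the two-form -/
def toF (α : Ch Z → C2 → BF) : TwoF Z where
  f20 x := cA (α (chartAt C2 x) (chartAt C2 x x))
  f11 x := Matrix.of fun i j => cB i j (α (chartAt C2 x) (chartAt C2 x x))
  f02 x := cC (α (chartAt C2 x) (chartAt C2 x x))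

/-- the conjugate form -/
def cjα (α : Ch Z → C2 → BF) : Ch Z → C2 → BF := fun e q => cjB (α e q)

variable {α β : Ch Z → C2 → BF}

theorem toF_cjα (hα : IsF2 α) : toF (cjα α) = cjF (toF α) := by
  apply TwoF.ext
  · funext x
    exact cA_cj _
  · funext x
    ext i j
    exact cB_cj (hα.alt _ (chart_mem_atlas C2 x) _ (mem_chart_target C2 x)) i j
  · funext x
    exact cC_cj _

theorem contDiff_cjB : ContDiff ℝ ∞ (fun β : BF => cjB β) := by
  have h : ContDiff ℝ ∞ (ContinuousLinearMap.compL ℝ (P272.K.Cm 2) (P272.K.Cm 2 →L[ℝ] ℂ)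
      (P272.K.Cm 2 →L[ℝ] ℂ)
      (ContinuousLinearMap.compL ℝ (P272.K.Cm 2) ℂ ℂ (Complex.conjCLE : ℂ →L[ℝ] ℂ))) :=
    ContinuousLinearMap.contDiff _
  exact h

theorem cjα_isF2 (hα : IsF2 α) : IsF2 (cjα α) where
  smooth e he q hq := by
    exact contDiff_cjB.contDiffAt.comp q (hα.smooth e he q hq)
  alt e he q hq := alt_cjB (hα.alt e he q hq)
  change e he e' he' x hx hx' u v := by
    simp only [cjα, cjB_apply]
    rw [hα.change e he e' he' x hx hx']

section mfd

variable [IsManifold 𝓘(ℂ, C2) ω Z]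

theorem fderiv_mulVec {e e' : Ch Z} (he : e ∈ atlas C2 Z) (he' : e' ∈ atlas C2 Z) {x : Z}
    (hx : x ∈ e.source) (hx' : x ∈ e'.source) (u : C2) :
    fderiv ℝ (fun q => e' (e.symm q)) (e x) u = (jacM e e' x).mulVec u := by
  rw [jacM_mulVec he he' hx hx' u,
    (trans_differentiableAt he he' hx hx').fderiv_restrictScalars ℝ]
  rfl

theorem change_mulVec (hα : IsF2 α) {e e' : Ch Z} (he : e ∈ atlas C2 Z) (he' : e' ∈ atlas C2 Z)
    {x : Z} (hx : x ∈ e.source) (hx' : x ∈ e'.source) (u v : C2) :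
    α e (e x) u v = α e' (e' x) ((jacM e e' x).mulVec u) ((jacM e e' x).mulVec v) := by
  rw [hα.change e he e' he' x hx hx', fderiv_mulVec he he' hx hx', fderiv_mulVec he he' hx hx']

theorem loc0_toF (hα : IsF2 α) {e : Ch Z} (he : e ∈ atlas C2 Z) {q : C2} (hq : q ∈ e.target) :
    loc0 1 e (toF α).f20 q = cA (α e q) := by
  set x := e.symm q with hx
  have hxs : x ∈ e.source := e.map_target hq
  have hex : e x = q := e.right_inv hq
  have h := cA_pull (hα.alt _ (chart_mem_atlas C2 x) _ (mem_chart_target C2 x))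
    (jacM e (chartAt C2 x) x)
    (change_mulVec hα he (chart_mem_atlas C2 x) hxs (mem_chart_source C2 x))
  rw [hex] at h
  rw [h, loc0, zpow_one]
  rfl

theorem loc2_toF (hα : IsF2 α) {e : Ch Z} (he : e ∈ atlas C2 Z) {q : C2} (hq : q ∈ e.target) :
    loc2 0 e (toF α).f02 q = cC (α e q) := by
  set x := e.symm q with hx
  have hxs : x ∈ e.source := e.map_target hq
  have hex : e x = q := e.right_inv hq
  have h := cC_pull (hα.alt _ (chart_mem_atlas C2 x) _ (mem_chart_target C2 x))
    (jacM e (chartAt C2 x) x)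
    (change_mulVec hα he (chart_mem_atlas C2 x) hxs (mem_chart_source C2 x))
  rw [hex] at h
  rw [h, loc2, zpow_zero, one_smul]
  rfl

theorem loc11_toF (hα : IsF2 α) {e : Ch Z} (he : e ∈ atlas C2 Z) {q : C2} (hq : q ∈ e.target)
    (i j : Fin 2) : loc11 e (toF α).f11 q i j = cB i j (α e q) := by
  set x := e.symm q with hx
  have hxs : x ∈ e.source := e.map_target hq
  have hex : e x = q := e.right_inv hq
  have h := cB_pull (hα.alt _ (chart_mem_atlas C2 x) _ (mem_chart_target C2 x))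
    (jacM e (chartAt C2 x) x)
    (change_mulVec hα he (chart_mem_atlas C2 x) hxs (mem_chart_source C2 x)) i j
  rw [hex] at h
  rw [h, loc11, Matrix.of_apply]
  rfl

theorem smooth_toF (hα : IsF2 α) : (toF α).Smooth := by
  refine ⟨fun e he => ?_, fun e he i j => ?_, fun e he => ?_⟩
  · refine ContDiffOn.congr (fun q hq => ?_) fun q hq => loc0_toF hα he hq
    exact (cA.contDiff.contDiffAt.comp q (hα.smooth e he q hq)).contDiffWithinAt
  · refine ContDiffOn.congr (fun q hq => ?_) fun q hq => loc11_toF hα he hq i j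
    exact ((cB i j).contDiff.contDiffAt.comp q (hα.smooth e he q hq)).contDiffWithinAt
  · refine ContDiffOn.congr (fun q hq => ?_) fun q hq => loc2_toF hα he hq
    exact (cC.contDiff.contDiffAt.comp q (hα.smooth e he q hq)).contDiffWithinAt

theorem fderiv_clm (L : BF →L[ℝ] ℂ) {f : C2 → BF} {q : C2} (hf : DifferentiableAt ℝ f q) (u : C2) :
    fderiv ℝ (fun z => L (f z)) q u = L (fderiv ℝ f q u) := by
  have h1 : HasFDerivAt L L (f q) := L.hasFDerivAt
  have h2 : HasFDerivAt f (fderiv ℝ f q) q := hf.hasFDerivAt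
  have h : HasFDerivAt (fun z => L (f z)) (L.comp (fderiv ℝ f q)) q :=
    HasFDerivAt.comp (g := L) (f := f) q h1 h2
  rw [h.fderiv]
  rfl

theorem closed_toF (hα : IsF2 α) (hc : IsC2 α) : (toF α).Closed := by
  have key : ∀ x : Z, (∀ i j, (fun z => loc11 (chartAt C2 x) (toF α).f11 z i j) =ᶠ[𝓝 (chartAt C2 x x)]
      fun z => cB i j (α (chartAt C2 x) z)) ∧
      ((loc0 1 (chartAt C2 x) (toF α).f20) =ᶠ[𝓝 (chartAt C2 x x)]
      fun z => cA (α (chartAt C2 x) z)) ∧
      ((loc2 0 (chartAt C2 x) (toF α).f02) =ᶠ[𝓝 (chartAt C2 x x)]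
      fun z => cC (α (chartAt C2 x) z)) := by
    intro x
    have hn := (chartAt C2 x).open_target.mem_nhds (mem_chart_target C2 x)
    refine ⟨fun i j => ?_, ?_, ?_⟩
    · filter_upwards [hn] with z hz
      exact loc11_toF hα (chart_mem_atlas C2 x) hz i j
    · filter_upwards [hn] with z hz
      exact loc0_toF hα (chart_mem_atlas C2 x) hz
    · filter_upwards [hn] with z hz
      exact loc2_toF hα (chart_mem_atlas C2 x) hz
  have hI := Complex.I_mul_I
  constructor
  · intro x j
    obtain ⟨k1, k2, k3⟩ := key x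
    have hd : DifferentiableAt ℝ (α (chartAt C2 x)) (chartAt C2 x x) :=
      (hα.smooth _ (chart_mem_atlas C2 x) _ (mem_chart_target C2 x)).differentiableAt (by simp)
    have hcl := hc _ (chart_mem_atlas C2 x) _ (mem_chart_target C2 x)
    rw [TwoF.d21, dbar0, Vale.Agent.P267.H469.dzb_congr k2, Vale.Agent.P267.H469.dz_congr (k1 1 j),
      Vale.Agent.P267.H469.dz_congr (k1 0 j)]
    simp only [dz, dzb, fderiv_clm _ hd, smul_eq_mul]
    simp only [cA, cB, Ev_apply]
    set D := fderiv ℝ (α (chartAt C2 x)) (chartAt C2 x x) with hD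
    have a0 := hcl (Pi.single 0 1) (Pi.single 1 1) (Pi.single j 1)
    have a1 := hcl (Pi.single 0 1) (Pi.single 1 1) (Pi.single j Complex.I)
    have a2 := hcl (Pi.single 0 1) (Pi.single 1 Complex.I) (Pi.single j 1)
    have a3 := hcl (Pi.single 0 1) (Pi.single 1 Complex.I) (Pi.single j Complex.I)
    have a4 := hcl (Pi.single 0 Complex.I) (Pi.single 1 1) (Pi.single j 1)
    have a5 := hcl (Pi.single 0 Complex.I) (Pi.single 1 1) (Pi.single j Complex.I)
    have a6 := hcl (Pi.single 0 Complex.I) (Pi.single 1 Complex.I) (Pi.single j 1)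
    have a7 := hcl (Pi.single 0 Complex.I) (Pi.single 1 Complex.I) (Pi.single j Complex.I)
    linear_combination (1 / 8 : ℂ) * a0 + (Complex.I / 8) * a1 - (Complex.I / 8) * a2
      - (Complex.I * Complex.I / 8) * a3 - (Complex.I / 8) * a4 - (Complex.I * Complex.I / 8) * a5
      + (Complex.I * Complex.I / 8) * a6 + (Complex.I * Complex.I * Complex.I / 8) * a7
  · intro x i
    obtain ⟨k1, k2, k3⟩ := key x
    have hd : DifferentiableAt ℝ (α (chartAt C2 x)) (chartAt C2 x x) :=
      (hα.smooth _ (chart_mem_atlas C2 x) _ (mem_chart_target C2 x)).differentiableAt (by simp)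
    have hcl := hc _ (chart_mem_atlas C2 x) _ (mem_chart_target C2 x)
    rw [TwoF.d12, Vale.Agent.P267.H469.dz_congr k3, Vale.Agent.P267.H469.dzb_congr (k1 i 1),
      Vale.Agent.P267.H469.dzb_congr (k1 i 0)]
    simp only [dz, dzb, fderiv_clm _ hd, smul_eq_mul]
    simp only [cC, cB, Ev_apply]
    set D := fderiv ℝ (α (chartAt C2 x)) (chartAt C2 x x) with hD
    have a0 := hcl (Pi.single i 1) (Pi.single 0 1) (Pi.single 1 1)
    have a1 := hcl (Pi.single i 1) (Pi.single 0 1) (Pi.single 1 Complex.I)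
    have a2 := hcl (Pi.single i 1) (Pi.single 0 Complex.I) (Pi.single 1 1)
    have a3 := hcl (Pi.single i 1) (Pi.single 0 Complex.I) (Pi.single 1 Complex.I)
    have a4 := hcl (Pi.single i Complex.I) (Pi.single 0 1) (Pi.single 1 1)
    have a5 := hcl (Pi.single i Complex.I) (Pi.single 0 1) (Pi.single 1 Complex.I)
    have a6 := hcl (Pi.single i Complex.I) (Pi.single 0 Complex.I) (Pi.single 1 1)
    have a7 := hcl (Pi.single i Complex.I) (Pi.single 0 Complex.I) (Pi.single 1 Complex.I)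
    linear_combination (1 / 8 : ℂ) * a0 + (Complex.I / 8) * a1 + (Complex.I / 8) * a2
      + (Complex.I * Complex.I / 8) * a3 - (Complex.I / 8) * a4 - (Complex.I * Complex.I / 8) * a5
      - (Complex.I * Complex.I / 8) * a6 - (Complex.I * Complex.I * Complex.I / 8) * a7

/-- the pairing in a chart -/
theorem loc2_wedge_toF (hα : IsF2 α) (hβ : IsF2 β) {e : Ch Z} (he : e ∈ atlas C2 Z) {q : C2}
    (hq : q ∈ e.target) : 4 * loc2 1 e ((toF α).wedge (toF β)) q = prg (α e q) (β e q) := by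
  rw [Vale.Agent.P267.H469.loc2_wedge, loc0_toF hα he hq, loc0_toF hβ he hq, loc2_toF hα he hq,
    loc2_toF hβ he hq, prg_eq (hα.alt e he q hq) (hβ.alt e he q hq)]
  simp only [loc11_toF hα he hq, loc11_toF hβ he hq]

theorem loc2_wedge_cj (hα : IsF2 α) (hβ : IsF2 β) {e : Ch Z} (he : e ∈ atlas C2 Z) {q : C2}
    (hq : q ∈ e.target) : 4 * loc2 1 e ((toF α).wedge (cjF (toF β))) q =
      prh (α e q) (β e q) := by
  rw [← toF_cjα hβ, loc2_wedge_toF hα (cjα_isF2 hβ) he hq]
  rfl

end mfd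

end Vale.Agent.P298.H723
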