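import Vale.Agent.P298.H723.Res3
import Vale.Agent.P298.H863.C8
import Vale.Agent.P298.H863.Eigen4

/-!
# P298, S1-GEO, R0/C12a: holomorphic 2-forms on a fibre as functions on the cone
-/

set_option linter.unusedSectionVars false

open scoped Manifold ContDiff ComplexConjugate Matrix Topology
open Set Filter

noncomputable section

namespace Vale.Agent.P298.H723

open Vale.Agent.P298.H39 Vale.Agent.P298.H863
open Vale.Agent.P272.K (Cm Chart)

variable {K : ℕ} {Ω : Set ℂ} {G : ℂ × VN (K + 3) → (Fin K → ℂ)} {dg : Fin K → ℕ} {t : ℂ}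

/-- the cone of the fibre over `t` -/
def Kt (G : ℂ × VN (K + 3) → (Fin K → ℂ)) (t : ℂ) : Set (VN (K + 3)) := {x | x ≠ 0 ∧ G (t, x) = 0}

theorem Kt.cone (ht : t ∈ Ω) {x : VN (K + 3)} (hx : x ∈ Kt G t) : (t, x) ∈ Cone Ω G :=
  ⟨ht, hx.1, hx.2⟩

theorem Kt.smul (h : CIF Ω G dg) (ht : t ∈ Ω) {x : VN (K + 3)} (hx : x ∈ Kt G t) {c : ℂ}
    (hc : c ≠ 0) : c • x ∈ Kt G t := by
  refine ⟨smul_ne_zero hc hx.1, ?_⟩
  funext k
  rw [h.hom t ht]
  have : G (t, x) k = 0 := by rw [hx.2]; rfl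
  simp [this]

/-- the monomial `x_a ^ N` -/
def pw (a : Fin (K + 3)) (N : ℕ) (y : ℂ × VN (K + 3)) : ℂ := y.2 a ^ N

theorem coord_analyticAt (a : Fin (K + 3)) (y : ℂ × VN (K + 3)) :
    AnalyticAt ℂ (fun y : ℂ × VN (K + 3) => y.2 a) y :=
  ((ContinuousLinearMap.proj (R := ℂ) (φ := fun _ : Fin (K + 3) => ℂ) a).comp
    (ContinuousLinearMap.snd ℂ ℂ (VN (K + 3)))).analyticAt y

theorem hpol_pw (a : Fin (K + 3)) (N : ℕ) : HPol Ω (pw a N) N where
  an t _ z _ := (coord_analyticAt a (t, z)).pow N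
  hom t _ c _ z := by
    show (c • z) a ^ N = c ^ N * z a ^ N
    rw [Pi.smul_apply, smul_eq_mul, mul_pow]

/-- proportionality of the coefficients -/
theorem cf_prop (h : CIF Ω G dg) {N : ℕ} (hN : N + (K + 3) = ∑ k, dg k)
    {P P' : ℂ × VN (K + 3) → ℂ} (hP : HPol Ω P N) (hP' : HPol Ω P' N) {e : PC (TZ Ω G)}
    (he : IsPC e) {z : TZ Ω G} (hz : z ∈ e.source) {y : ℂ × VN (K + 3)} (hy : Rep y z) :
    cf P e (e z) * P' y = cf P' e (e z) * P y := by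
  have hq := e.map_source hz
  obtain ⟨L, hL⟩ := he.exists_isL hq
  have hr : Rep (L (e z)) z := by
    have := hL.rep.self_of_nhds
    rwa [e.left_inv hz] at this
  obtain ⟨c, hc, hyc⟩ := hr.eq_smul hy
  have ht := (hL.mem_cone h).1
  rw [cf_eq h hP hN he hq hL, cf_eq h hP' hN he hq hL, hyc, hP.hom _ ht c hc,
    hP'.hom _ ht c hc, cfL, cfL]
  ring

theorem cf_pw_ne (h : CIF Ω G dg) {N : ℕ} (hN : N + (K + 3) = ∑ k, dg k) {e : PC (TZ Ω G)}
    (he : IsPC e) {z : TZ Ω G} (hz : z ∈ e.source) {y : ℂ × VN (K + 3)} (hy : Rep y z)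
    {a : Fin (K + 3)} (ha : y.2 a ≠ 0) : cf (pw a N) e (e z) ≠ 0 := by
  have hq := e.map_source hz
  obtain ⟨L, hL⟩ := he.exists_isL hq
  have hr : Rep (L (e z)) z := by
    have := hL.rep.self_of_nhds
    rwa [e.left_inv hz] at this
  refine cf_ne_zero h (hpol_pw a N) hN he hq hL ?_
  have h1 : (L (e z)).2 a ≠ 0 := by
    rw [← hr.mem_Ua, hy.mem_Ua]
    exact ha
  exact pow_ne_zero _ h1

/-- the determinant of the change of charts -/
def dt (e e' : PC (TZ Ω G)) (z : TZ Ω G) : ℂ :=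
  fj e e' z (Pi.single 0 1) 0 * fj e e' z (Pi.single 1 1) 1 -
    fj e e' z (Pi.single 0 1) 1 * fj e e' z (Pi.single 1 1) 0

section fib

variable (h : CIF Ω G dg) {hh : Chart 2 ((fam h rfl).Fib t) → Cm 2 → ℂ}

theorem det_jac {φ φ' : Chart 2 ((fam h rfl).Fib t)} {e e' : PC (TZ Ω G)}
    (hφ : IsFC (fam h rfl) t φ e) (hφ' : IsFC (fam h rfl) t φ' e') {x : (fam h rfl).Fib t}
    (hx : x ∈ φ.source) (hx' : x ∈ φ'.source) :
    (P272.K.jacM φ φ' x).det = dt e e' x.val := by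
  rw [Matrix.det_fin_two, hφ.jac_entry hφ' hx hx', hφ.jac_entry hφ' hx hx',
    hφ.jac_entry hφ' hx hx', hφ.jac_entry hφ' hx hx', dt]
  simp only [fjL_apply]
  ring

theorem hh_change (hh2 : IsHol2 (Z := (fam h rfl).Fib t) hh) {φ φ' : Chart 2 ((fam h rfl).Fib t)}
    {e e' : PC (TZ Ω G)}
    (hφ : IsFC (fam h rfl) t φ e) (hφ' : IsFC (fam h rfl) t φ' e') {x : (fam h rfl).Fib t}
    (hx : x ∈ φ.source) (hx' : x ∈ φ'.source) :
    hh φ (φ x) = dt e e' x.val * hh φ' (φ' x) := by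
  rw [hh2.change φ ⟨e, hφ⟩ φ' ⟨e', hφ'⟩ x hx hx', det_jac h hφ hφ' hx hx']

/-- the value on the cone -/
theorem exists_value (ht : t ∈ Ω) {N : ℕ} (hN : N + (K + 3) = ∑ k, dg k)
    (hh2 : IsHol2 (Z := (fam h rfl).Fib t) hh) (x : VN (K + 3)) (hx : x ∈ Kt G t) :
    ∃ v : ℂ, ∀ P, HPol Ω P N → ∀ ζ : (fam h rfl).Fib t, Rep (t, x) ζ.val →
      ∀ φ e, IsFC (fam h rfl) t φ e → ζ ∈ φ.source →
        v * cf P e (e ζ.val) = P (t, x) * hh φ (φ ζ) := by
  obtain ⟨z0, hz0⟩ := exists_of_cone (Kt.cone ht hx)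
  obtain ⟨e0, he0, hs0⟩ := exists_pc h rfl z0
  obtain ⟨a, ha⟩ := Function.ne_iff.mp hx.1
  have ha' : x a ≠ 0 := ha
  set ζ0 : (fam h rfl).Fib t := ⟨z0, hz0.2.1⟩ with hζ0
  set φ0 := fch ζ0 e0 (show e0 ∈ (fam h rfl).A from he0) with hφ0
  have hF0 : IsFC (fam h rfl) t φ0 e0 := isFC_fch ζ0 (show e0 ∈ (fam h rfl).A from he0)
  have hs0' : ζ0 ∈ φ0.source := hs0
  have hne := cf_pw_ne h hN he0 hs0 hz0 (a := a) ha'
  refine ⟨x a ^ N * hh φ0 (φ0 ζ0) / cf (pw a N) e0 (e0 z0), fun P hP ζ hζ φ e hφ hs => ?_⟩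
  have hζz : ζ.val = z0 := hζ.inj hz0
  have hζζ : ζ = ζ0 := Fam.Fib.ext hζz
  subst hζζ
  have he : IsPC e := hφ.mem
  have hse : ζ0.val ∈ e.source := (hφ.src _).mp hs
  have h1 := cf_change h hP hN he he0 hse hs0
  have h2 := hh_change h hh2 hφ hF0 hs hs0'
  have h3 := cf_prop h hN hP (hpol_pw a N) he0 hs0 hz0
  have h4 : cf P e (e z0) = dt e e0 z0 * cf P e0 (e0 z0) := h1
  have h5 : hh φ (φ ζ0) = dt e e0 z0 * hh φ0 (φ0 ζ0) := h2
  have h6 : cf P e0 (e0 z0) * x a ^ N = cf (pw a N) e0 (e0 z0) * P (t, x) := h3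
  show _ * cf P e (e z0) = _
  rw [h4, h5]
  field_simp
  linear_combination (dt e e0 z0 * hh φ0 (φ0 ζ0)) * h6

/-- **C12a.** A holomorphic 2-form on the fibre over `t` is a function on the cone, times the
residue form. -/
theorem exists_fn (ht : t ∈ Ω) {N : ℕ} (hN : N + (K + 3) = ∑ k, dg k)
    (hh2 : IsHol2 (Z := (fam h rfl).Fib t) hh) :
    ∃ f : VN (K + 3) → ℂ, LocAn (Kt G t) f ∧
      (∀ c : ℂ, c ≠ 0 → ∀ x ∈ Kt G t, f (c • x) = c ^ N * f x) ∧
      (∀ P, HPol Ω P N → ∀ x ∈ Kt G t, ∀ ζ : (fam h rfl).Fib t, Rep (t, x) ζ.val →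
        ∀ φ e, IsFC (fam h rfl) t φ e → ζ ∈ φ.source →
        f x * cf P e (e ζ.val) = P (t, x) * hh φ (φ ζ)) := by
  choose! f hf using exists_value h ht hN hh2
  refine ⟨f, ?_, ?_, fun P hP x hx => hf x hx P hP⟩
  · intro x0 hx0
    obtain ⟨z0, hz0⟩ := exists_of_cone (Kt.cone ht hx0)
    obtain ⟨e, he, hs⟩ := exists_pc h rfl z0
    obtain ⟨a, ha⟩ := Function.ne_iff.mp hx0.1
    have ha' : x0 a ≠ 0 := ha
    set ζ0 : (fam h rfl).Fib t := ⟨z0, hz0.2.1⟩ with hζ0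
    set φ := fch ζ0 e (show e ∈ (fam h rfl).A from he) with hφ
    have hF : IsFC (fam h rfl) t φ e := isFC_fch ζ0 (show e ∈ (fam h rfl).A from he)
    have hsφ : ζ0 ∈ φ.source := hs
    obtain ⟨E, hE, hEf⟩ := he.an z0 hs (t, x0) hz0
    have hE0 : e z0 = E (t, x0) := hEf.self_of_nhds z0 hz0
    have hcf := cf_analyticAt h (hpol_pw a N) hN he (e.map_source hs)
    have hne := cf_pw_ne h hN he hs hz0 (a := a) ha'
    have hi : AnalyticAt ℂ (fun x : VN (K + 3) => ((t, x) : ℂ × VN (K + 3))) x0 :=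
      analyticAt_const.prod analyticAt_id
    have hEi : AnalyticAt ℂ (fun x : VN (K + 3) => E (t, x)) x0 :=
      AnalyticAt.comp (g := E) (f := fun x : VN (K + 3) => ((t, x) : ℂ × VN (K + 3))) hE hi
    have hc1 : AnalyticAt ℂ (fun x => cf (pw a N) e (E (t, x))) x0 := by
      refine AnalyticAt.comp (g := cf (pw a N) e) (f := fun x : VN (K + 3) => E (t, x)) ?_ hEi
      show AnalyticAt ℂ (cf (pw a N) e) (E (t, x0))
      rw [← hE0]
      exact hcf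
    have hφ0 : (E (t, x0)).1 = φ ζ0 := by
      rw [hF.eq ζ0 hsφ, ← hE0]
    have hh1 : AnalyticAt ℂ (hh φ) ((E (t, x0)).1) := by
      rw [hφ0]
      exact P281.MF.analyticAt_of_differentiableOn φ.open_target (hh2.hol φ ⟨e, hF⟩)
        (φ.map_source hsφ)
    have hh3 : AnalyticAt ℂ (fun x => hh φ (E (t, x)).1) x0 :=
      AnalyticAt.comp (g := hh φ) (f := fun x : VN (K + 3) => (E (t, x)).1) hh1
        (analyticAt_fst.comp hEi)
    have hxa : AnalyticAt ℂ (fun x : VN (K + 3) => x a ^ N) x0 :=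
      (((ContinuousLinearMap.proj (R := ℂ) (φ := fun _ : Fin (K + 3) => ℂ) a)).analyticAt x0).pow N
    have hne' : cf (pw a N) e (E (t, x0)) ≠ 0 := by rw [← hE0]; exact hne
    refine ⟨fun x => x a ^ N * hh φ (E (t, x)).1 / cf (pw a N) e (E (t, x)),
      (hxa.mul hh3).div hc1 hne', ?_⟩
    have ev1 : ∀ᶠ y in 𝓝 ((t, x0) : ℂ × VN (K + 3)), ∀ z', Rep y z' → z' ∈ e.source :=
      hz0.eventually (e.open_source.mem_nhds hs)
    have hci : Tendsto (fun x : VN (K + 3) => ((t, x) : ℂ × VN (K + 3))) (𝓝 x0) (𝓝 (t, x0)) :=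
      hi.continuousAt.tendsto
    filter_upwards [hci.eventually ev1, hci.eventually hEf,
      hc1.continuousAt.eventually_ne hne'] with x h1 h2 h3 hx
    obtain ⟨z, hz⟩ := exists_of_cone (Kt.cone ht hx)
    set ζ : (fam h rfl).Fib t := ⟨z, hz.2.1⟩ with hζ
    have h4 : z ∈ e.source := h1 z hz
    have h5 : e z = E (t, x) := h2 z hz
    have h6 : ζ ∈ φ.source := h4
    have h7 := hf x hx (pw a N) (hpol_pw a N) ζ hz φ e hF h6
    have h8 : φ ζ = (E (t, x)).1 := by rw [hF.eq ζ h6, ← h5]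
    have h9 : e ζ.val = E (t, x) := h5
    rw [h8, h9] at h7
    rw [eq_div_iff h3]
    exact h7
  · intro c hc x hx
    obtain ⟨z, hz⟩ := exists_of_cone (Kt.cone ht hx)
    obtain ⟨e, he, hs⟩ := exists_pc h rfl z
    obtain ⟨a, ha⟩ := Function.ne_iff.mp hx.1
    have ha' : x a ≠ 0 := ha
    set ζ : (fam h rfl).Fib t := ⟨z, hz.2.1⟩ with hζ
    set φ := fch ζ e (show e ∈ (fam h rfl).A from he) with hφ
    have hF : IsFC (fam h rfl) t φ e := isFC_fch ζ (show e ∈ (fam h rfl).A from he)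
    have hsφ : ζ ∈ φ.source := hs
    have hne := cf_pw_ne h hN he hs hz (a := a) ha'
    have h1 := hf x hx (pw a N) (hpol_pw a N) ζ hz φ e hF hsφ
    have h2 := hf (c • x) (Kt.smul h ht hx hc) (pw a N) (hpol_pw a N) ζ (hz.smul hc) φ e hF hsφ
    have h3 : pw a N (t, c • x) = c ^ N * pw a N (t, x) := (hpol_pw (Ω := Ω) a N).hom t ht c hc x
    apply mul_right_cancel₀ (show cf (pw a N) e (e ζ.val) ≠ 0 from hne)
    rw [h2, h3, mul_assoc, mul_assoc, h1]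

variable {h}

/-- if the function is a homogeneous polynomial then the form is `P w_Z` -/
theorem eq_cf {N : ℕ} (hN : N + (K + 3) = ∑ k, dg k) {f : VN (K + 3) → ℂ}
    (hf : ∀ P, HPol Ω P N → ∀ x ∈ Kt G t, ∀ ζ : (fam h rfl).Fib t, Rep (t, x) ζ.val →
        ∀ φ e, IsFC (fam h rfl) t φ e → ζ ∈ φ.source →
        f x * cf P e (e ζ.val) = P (t, x) * hh φ (φ ζ))
    {P : ℂ × VN (K + 3) → ℂ} (hP : HPol Ω P N) (hfP : ∀ x ∈ Kt G t, f x = P (t, x))
    {φ : Chart 2 ((fam h rfl).Fib t)} {e : PC (TZ Ω G)} (hφ : IsFC (fam h rfl) t φ e)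
    {w : Cm 2} (hw : w ∈ φ.target) : hh φ w = cf P e (w, t) := by
  set ζ := φ.symm w with hζ
  have hs : ζ ∈ φ.source := φ.map_target hw
  have hse : ζ.val ∈ e.source := (hφ.src _).mp hs
  have hφζ : φ ζ = w := φ.right_inv hw
  have heζ : e ζ.val = (w, t) := by rw [hφ.apply hs, hφζ]
  obtain ⟨y, hy⟩ := exists_rep ζ.val
  have hy1 : y.1 = t := hy.2.1.symm.trans ζ.prop
  have hyt : y = (t, y.2) := Prod.ext hy1 rfl
  have hyc := hy.mem_cone h
  have hyK : y.2 ∈ Kt G t := ⟨hyc.2.1, by rw [← hyt]; exact hyc.2.2⟩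
  have hy' : Rep (t, y.2) ζ.val := by rw [← hyt]; exact hy
  obtain ⟨a, ha⟩ := Function.ne_iff.mp hyK.1
  have ha' : y.2 a ≠ 0 := ha
  have h1 := hf (pw a N) (hpol_pw a N) y.2 hyK ζ hy' φ e hφ hs
  have h2 := cf_prop h hN hP (hpol_pw a N) hφ.mem hse hy'
  rw [heζ, hφζ, hfP y.2 hyK] at h1
  rw [heζ] at h2
  have h3 : pw a N (t, y.2) ≠ 0 := pow_ne_zero _ ha'
  apply mul_left_cancel₀ h3
  rw [← h1, mul_comm (pw a N (t, y.2)), h2, mul_comm]

/-- the function of a form with a character is an eigenfunction -/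
theorem fn_deck (ht : t ∈ Ω) {N : ℕ} (hN : N + (K + 3) = ∑ k, dg k) {f : VN (K + 3) → ℂ}
    (hf : ∀ P, HPol Ω P N → ∀ x ∈ Kt G t, ∀ ζ : (fam h rfl).Fib t, Rep (t, x) ζ.val →
        ∀ φ e, IsFC (fam h rfl) t φ e → ζ ∈ φ.source →
        f x * cf P e (e ζ.val) = P (t, x) * hh φ (φ ζ))
    {S : VN (K + 3) ≃L[ℂ] VN (K + 3)} (hS : IsDeck Ω G S)
    (hdet : (endM (S : VN (K + 3) →L[ℂ] VN (K + 3))).det ≠ 0) {χ : ℂ}
    (hp : ∀ z, (fam h rfl).p (deck h hS z) = (fam h rfl).p z)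
    (hχ : ∀ φ ∈ atlas (Cm 2) ((fam h rfl).Fib t), ∀ w ∈ φ.target,
      hh φ w = χ * hh ((fibH (deck h hS) hp t).transOpenPartialHomeomorph φ) w)
    {x : VN (K + 3)} (hx : x ∈ Kt G t) :
    f (S x) = χ * (endM (S : VN (K + 3) →L[ℂ] VN (K + 3))).det⁻¹ * f x := by
  set D := (endM (S : VN (K + 3) →L[ℂ] VN (K + 3))).det with hD
  set x' := S x with hx'
  have hxx : S.symm x' = x := S.symm_apply_apply x
  have hx'K : x' ∈ Kt G t := by
    have := hS.cone (Kt.cone ht hx)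
    exact ⟨this.2.1, this.2.2⟩
  obtain ⟨z', hz'⟩ := exists_of_cone (Kt.cone ht hx'K)
  obtain ⟨e, he, hs⟩ := exists_pc h rfl z'
  obtain ⟨a, ha⟩ := Function.ne_iff.mp hx'K.1
  have ha' : x' a ≠ 0 := ha
  set ζ : (fam h rfl).Fib t := ⟨z', hz'.2.1⟩ with hζ
  set φ := fch ζ e (show e ∈ (fam h rfl).A from he) with hφ
  have hF : IsFC (fam h rfl) t φ e := isFC_fch ζ (show e ∈ (fam h rfl).A from he)
  have hsφ : ζ ∈ φ.source := hs
  have hne := cf_pw_ne h hN he hs hz' (a := a) ha'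
  have h1 := hf (pw a N) (hpol_pw a N) x' hx'K ζ hz' φ e hF hsφ
  -- the moved chart
  set σ := deck h hS with hσ
  have hA : ∀ e ∈ (fam h rfl).A, σ.transOpenPartialHomeomorph e ∈ (fam h rfl).A := fun e he =>
    isPC_deck h hS he
  have hF' : IsFC (fam h rfl) t ((fibH σ hp t).transOpenPartialHomeomorph φ)
      (σ.transOpenPartialHomeomorph e) := isFC_trans hA hF
  set ζ' : (fam h rfl).Fib t := (fibH σ hp t).symm ζ with hζ'
  have hζζ : fibH σ hp t ζ' = ζ := (fibH σ hp t).apply_symm_apply ζ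
  have hs' : ζ' ∈ ((fibH σ hp t).transOpenPartialHomeomorph φ).source := by
    show fibH σ hp t ζ' ∈ φ.source
    rw [hζζ]
    exact hsφ
  have hr' : Rep (t, x) ζ'.val := by
    have := rep_deck_symm h hS hz'
    rw [← hxx]
    exact this
  -- the polynomial
  set P : ℂ × VN (K + 3) → ℂ := fun y => (S y.2) a ^ N with hPdef
  have hP : HPol Ω P N := by
    refine ⟨fun s _ z _ => ?_, fun s _ c _ z => ?_⟩
    · have h2 : AnalyticAt ℂ (fun y : ℂ × VN (K + 3) => (S y.2) a) (s, z) :=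
        ((ContinuousLinearMap.proj (R := ℂ) (φ := fun _ : Fin (K + 3) => ℂ) a).comp
          ((S : VN (K + 3) →L[ℂ] VN (K + 3)).comp
            (ContinuousLinearMap.snd ℂ ℂ (VN (K + 3))))).analyticAt _
      exact h2.pow N
    · show (S (c • z)) a ^ N = c ^ N * (S z) a ^ N
      rw [map_smul, Pi.smul_apply, smul_eq_mul, mul_pow]
  have h2 := hf P hP x hx ζ' hr' _ _ hF' hs'
  have h3 : (σ.transOpenPartialHomeomorph e) ζ'.val = e z' := by
    show e (σ (σ.symm z')) = e z'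
    rw [σ.apply_symm_apply]
  have h4 : ((fibH σ hp t).transOpenPartialHomeomorph φ) ζ' = φ ζ := by
    show φ (fibH σ hp t ζ') = φ ζ
    rw [hζζ]
  rw [h3, h4] at h2
  have hq := e.map_source hs
  obtain ⟨L, hL⟩ := he.exists_isL hq
  have hL' := isL_deck h hS hL
  have h5 : cf P (σ.transOpenPartialHomeomorph e) (e z') =
      cfL G P (fun q => ((L q).1, S.symm (L q).2)) (e z') :=
    cf_eq h hP hN (isPC_deck h hS he) hq hL'
  have h6 : cfL G P (fun q => ((L q).1, S.symm (L q).2)) (e z') =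
      cfL G (fun y => D⁻¹ * pw a N y) L (e z') := by
    refine cfL_deck h hS he hq hL ?_ hdet
    show D⁻¹ * pw a N (L (e z')) = D⁻¹ * (S (S.symm (L (e z')).2)) a ^ N
    rw [S.apply_symm_apply]
    rfl
  have h7 : cf P (σ.transOpenPartialHomeomorph e) (e z') = D⁻¹ * cf (pw a N) e (e z') := by
    rw [h5, h6, cf_eq h (hpol_pw a N) hN he hq hL, cfL, cfL]
    ring
  have h8 : P (t, x) = x' a ^ N := rfl
  have h9 : pw a N (t, x') = x' a ^ N := rfl
  have h10 := hχ φ ⟨e, hF⟩ (φ ζ) (φ.map_source hsφ)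
  rw [h7, h8] at h2
  rw [h9, h10] at h1
  apply mul_right_cancel₀ (show cf (pw a N) e (e ζ.val) ≠ 0 from hne)
  rw [h1]
  have h11 : x' a ^ N * hh ((fibH σ hp t).transOpenPartialHomeomorph φ) (φ ζ) =
      f x * (D⁻¹ * cf (pw a N) e (e z')) := h2.symm
  calc x' a ^ N * (χ * hh ((fibH σ hp t).transOpenPartialHomeomorph φ) (φ ζ))
      = χ * (x' a ^ N * hh ((fibH σ hp t).transOpenPartialHomeomorph φ) (φ ζ)) := by ring
    _ = χ * D⁻¹ * f x * cf (pw a N) e (e z') := by rw [h11]; ring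

end fib

end Vale.Agent.P298.H723
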