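import Vale.Agent.P298.H723.Bridge

/-!
# P298, S1-GEO-R3: complex densities, their integral, invariance under a deck transformation
-/

set_option linter.unusedSectionVars false
set_option maxSynthPendingDepth 3

open scoped Manifold ContDiff ComplexConjugate Matrix ComplexOrder Topology
open MeasureTheory Set

noncomputable section

namespace Vale.Agent.P298.H723

open Vale.Agent Vale.Agent.P267.FL Vale.Agent.P298.H39
open Vale.Agent.P267.H469 (cj0 cj1 cj11 cjF)
open Vale.Agent.P272.K.INT (IsDensity Part part)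

variable {Z : Type} [TopologicalSpace Z] [ChartedSpace C2 Z]

/-- complex density -/
structure IsDC (D : Ch Z → C2 → ℂ) : Prop where
  cont : ∀ e ∈ atlas C2 Z, ∀ x ∈ e.source, ContinuousAt (D e) (e x)
  change : ∀ e ∈ atlas C2 Z, ∀ e' ∈ atlas C2 Z, ∀ x ∈ e.source, x ∈ e'.source →
    D e (e x) = D e' (e' x) * ((‖(P272.K.jacM e e' x).det‖ ^ 2 : ℝ) : ℂ)

theorem IsDC.re {D : Ch Z → C2 → ℂ} (h : IsDC D) :
    IsDensity (n := 2) (X := Z) fun e q => (D e q).re where
  cont e x hx := Complex.continuous_re.continuousAt.comp (h.cont e hx.1 x hx.2)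
  change e e' x hx hx' := by
    show (D e (e x)).re = (D e' (e' x)).re * _
    rw [h.change e hx.1 e' hx'.1 x hx.2 hx'.2, Complex.re_mul_ofReal]

theorem IsDC.im {D : Ch Z → C2 → ℂ} (h : IsDC D) :
    IsDensity (n := 2) (X := Z) fun e q => (D e q).im where
  cont e x hx := Complex.continuous_im.continuousAt.comp (h.cont e hx.1 x hx.2)
  change e e' x hx hx' := by
    show (D e (e x)).im = (D e' (e' x)).im * _
    rw [h.change e hx.1 e' hx'.1 x hx.2 hx'.2, Complex.im_mul_ofReal]

theorem IsDC.const_mul {D : Ch Z → C2 → ℂ} (h : IsDC D) (c : ℂ) : IsDC fun e q => c * D e q where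
  cont e he x hx := continuousAt_const.mul (h.cont e he x hx)
  change e he e' he' x hx hx' := by
    simp only [h.change e he e' he' x hx hx']
    ring

theorem IsDC.add {D D' : Ch Z → C2 → ℂ} (h : IsDC D) (h' : IsDC D') :
    IsDC fun e q => D e q + D' e q where
  cont e he x hx := (h.cont e he x hx).add (h'.cont e he x hx)
  change e he e' he' x hx hx' := by
    simp only [h.change e he e' he' x hx hx', h'.change e he e' he' x hx hx']
    ring

theorem IsDC.zero : IsDC fun (_ : Ch Z) (_ : C2) => (0 : ℂ) where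
  cont _ _ _ _ := continuousAt_const
  change _ _ _ _ _ _ _ := by simp

theorem IsDC.sum {ι : Type} (s : Finset ι) {D : ι → Ch Z → C2 → ℂ} (h : ∀ i ∈ s, IsDC (D i)) :
    IsDC fun e q => ∑ i ∈ s, D i e q := by
  classical
  induction s using Finset.induction_on with
  | empty => simpa using IsDC.zero
  | insert a s ha ih =>
    simp only [Finset.sum_insert ha]
    exact (h a (Finset.mem_insert_self a s)).add (ih fun i hi => h i (Finset.mem_insert_of_mem hi))

variable [IsManifold 𝓘(ℂ, C2) ω Z] [T2Space Z] [CompactSpace Z]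

/-- the integral of a complex density -/
def cI (D : Ch Z → C2 → ℂ) : ℂ :=
  ((P272.K.INT.intX (n := 2) (X := Z) fun e q => (D e q).re : ℝ) : ℂ) +
    ((P272.K.INT.intX (n := 2) (X := Z) fun e q => (D e q).im : ℝ) : ℂ) * Complex.I

theorem cI_congr {D D' : Ch Z → C2 → ℂ} (h : ∀ e ∈ atlas C2 Z, ∀ q ∈ e.target, D e q = D' e q) :
    cI D = cI D' := by
  have h1 : P272.K.INT.intX (n := 2) (X := Z) (fun e q => (D e q).re) =
      P272.K.INT.intX (n := 2) (X := Z) (fun e q => (D' e q).re) :=
    P272.K.INT.intX_congr fun e x hx => by rw [h e hx.1 _ (e.map_source hx.2)]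
  have h2 : P272.K.INT.intX (n := 2) (X := Z) (fun e q => (D e q).im) =
      P272.K.INT.intX (n := 2) (X := Z) (fun e q => (D' e q).im) :=
    P272.K.INT.intX_congr fun e x hx => by rw [h e hx.1 _ (e.map_source hx.2)]
  rw [cI, cI, h1, h2]

theorem cI_add {D D' : Ch Z → C2 → ℂ} (h : IsDC D) (h' : IsDC D') :
    cI (fun e q => D e q + D' e q) = cI D + cI D' := by
  unfold cI
  simp only [Complex.add_re, Complex.add_im]
  rw [P272.K.INT.intX_add h.re h'.re, P272.K.INT.intX_add h.im h'.im]
  push_cast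
  ring

theorem cI_const_mul {D : Ch Z → C2 → ℂ} (h : IsDC D) (c : ℂ) :
    cI (fun e q => c * D e q) = c * cI D := by
  unfold cI
  simp only [Complex.mul_re, Complex.mul_im]
  rw [P272.K.INT.intX_sub (h.re.const_mul c.re) (h.im.const_mul c.im),
    P272.K.INT.intX_add (h.im.const_mul c.re) (h.re.const_mul c.im),
    P272.K.INT.intX_const_mul, P272.K.INT.intX_const_mul, P272.K.INT.intX_const_mul,
    P272.K.INT.intX_const_mul]
  apply Complex.ext <;> simp

theorem cI_zero : cI (fun (_ : Ch Z) (_ : C2) => (0 : ℂ)) = 0 := by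
  have := cI_const_mul (Z := Z) IsDC.zero 0
  simpa using this

theorem cI_sum {ι : Type} (s : Finset ι) {D : ι → Ch Z → C2 → ℂ} (h : ∀ i ∈ s, IsDC (D i)) :
    cI (fun e q => ∑ i ∈ s, D i e q) = ∑ i ∈ s, cI (D i) := by
  classical
  induction s using Finset.induction_on with
  | empty => simpa using cI_zero
  | insert a s ha ih =>
    simp only [Finset.sum_insert ha]
    rw [cI_add (h a (Finset.mem_insert_self a s))
      (IsDC.sum s fun i hi => h i (Finset.mem_insert_of_mem hi)),
      ih fun i hi => h i (Finset.mem_insert_of_mem hi)]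

/-- the density of a `(2,2)`-form -/
theorem isDC_loc2 {b : Z → ℂ} (hb : Reg2 ∞ 1 b) : IsDC fun e q => 4 * loc2 1 e b q where
  cont e he x hx := by
    have h1 : ContinuousAt (loc2 1 e b) (e x) :=
      ((hb e he).contDiffAt (e.open_target.mem_nhds (e.map_source hx))).continuousAt
    exact continuousAt_const.mul h1
  change e he e' he' x hx hx' := by
    simp only [loc2_change (κ := 1) he he' hx hx' b, zpow_one, smul_eq_mul]
    rw [Vale.Agent.P267.H661.jacM_eq', ← Complex.normSq_eq_norm_sq, ← Complex.mul_conj]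
    ring

/-- the integral of a `(2,2)`-form is the integral of its density -/
theorem intX_eq_cI {b : Z → ℂ} (hb : Reg2 ∞ 1 b) :
    intX b = cI fun e q => 4 * loc2 1 e b q := by
  have hD := isDC_loc2 hb
  have hb0 : Reg2 0 1 b := hb.zero_order
  have h1 := hasInt_intX hb0 (HasCompactSupport.of_compactSpace _)
  set P := part 2 Z with hP
  have h2 := h1 P.N P.e P.ρ P.mem P.cont (fun i => HasCompactSupport.of_compactSpace _) P.supp
    (fun x _ => P.sum x)
  rw [← h2]
  have h3 : ∀ i, ∫ z in (P.e i).target, (4 * (P.ρ i ((P.e i).symm z) : ℂ)) * loc2 1 (P.e i) b z =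
      ((∫ z in (P.e i).target, P.ρ i ((P.e i).symm z) * (4 * loc2 1 (P.e i) b z).re : ℝ) : ℂ) +
      ((∫ z in (P.e i).target, P.ρ i ((P.e i).symm z) * (4 * loc2 1 (P.e i) b z).im : ℝ) : ℂ) *
        Complex.I := by
    intro i
    have i1 := P272.K.INT.integrableOn_part P hD.re i
    have i2 := P272.K.INT.integrableOn_part P hD.im i
    have e1 : ∫ z in (P.e i).target, (4 * (P.ρ i ((P.e i).symm z) : ℂ)) * loc2 1 (P.e i) b z =
        ∫ z in (P.e i).target,
          (((P.ρ i ((P.e i).symm z) * (4 * loc2 1 (P.e i) b z).re : ℝ) : ℂ) +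
            ((P.ρ i ((P.e i).symm z) * (4 * loc2 1 (P.e i) b z).im : ℝ) : ℂ) * Complex.I) := by
      refine integral_congr_ae (Filter.Eventually.of_forall fun z => ?_)
      have h4 := Complex.re_add_im (4 * loc2 1 (P.e i) b z)
      show (4 * (P.ρ i ((P.e i).symm z) : ℂ)) * loc2 1 (P.e i) b z = _
      conv_lhs => rw [show (4 * (P.ρ i ((P.e i).symm z) : ℂ)) * loc2 1 (P.e i) b z =
        (P.ρ i ((P.e i).symm z) : ℂ) * (4 * loc2 1 (P.e i) b z) by ring, ← h4]
      simp only [Complex.ofReal_mul]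
      ring
    rw [e1, integral_add i1.ofReal (i2.ofReal.mul_const _), integral_mul_const,
      integral_complex_ofReal, integral_complex_ofReal]
  simp only [h3, Finset.sum_add_distrib, ← Finset.sum_mul]
  rw [cI, P272.K.INT.intX, P272.K.INT.intX]
  push_cast
  rfl

/-! ### deck transformations -/

section deck

variable (σ : Z ≃ₜ Z)

/-- translation of the charts -/
def TC (e : Ch Z) : Ch Z := σ.transOpenPartialHomeomorph e

omit [ChartedSpace C2 Z] [IsManifold 𝓘(ℂ, C2) ω Z] [T2Space Z] [CompactSpace Z] in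
theorem TC_apply (e : Ch Z) (x : Z) : TC σ e x = e (σ x) := rfl

omit [ChartedSpace C2 Z] [IsManifold 𝓘(ℂ, C2) ω Z] [T2Space Z] [CompactSpace Z] in
theorem TC_symm (e : Ch Z) (q : C2) : (TC σ e).symm q = σ.symm (e.symm q) := rfl

omit [ChartedSpace C2 Z] [IsManifold 𝓘(ℂ, C2) ω Z] [T2Space Z] [CompactSpace Z] in
theorem TC_target (e : Ch Z) : (TC σ e).target = e.target := rfl

omit [ChartedSpace C2 Z] [IsManifold 𝓘(ℂ, C2) ω Z] [T2Space Z] [CompactSpace Z] in
theorem TC_source (e : Ch Z) : (TC σ e).source = σ ⁻¹' e.source := rfl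

omit [ChartedSpace C2 Z] [IsManifold 𝓘(ℂ, C2) ω Z] [T2Space Z] [CompactSpace Z] in
theorem TC_apply_symm (e : Ch Z) (x : Z) : TC σ e (σ.symm x) = e x := by
  rw [TC_apply, σ.apply_symm_apply]

omit [ChartedSpace C2 Z] [IsManifold 𝓘(ℂ, C2) ω Z] [T2Space Z] [CompactSpace Z] in
theorem TC_mem (e : Ch Z) {x : Z} (hx : x ∈ e.source) : σ.symm x ∈ (TC σ e).source := by
  rw [TC_source, mem_preimage, σ.apply_symm_apply]
  exact hx

omit [ChartedSpace C2 Z] [IsManifold 𝓘(ℂ, C2) ω Z] [T2Space Z] [CompactSpace Z] in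
theorem TC_jacM (e e' : Ch Z) (x : Z) :
    P272.K.jacM (TC σ e) (TC σ e') (σ.symm x) = P272.K.jacM e e' x := by
  ext p i
  have h1 : (fun z => (TC σ e') ((TC σ e).symm z) p) = fun z => e' (e.symm z) p := by
    funext z
    rw [TC_symm, TC_apply_symm]
  show P272.K.dz i (fun z => (TC σ e') ((TC σ e).symm z) p) ((TC σ e) (σ.symm x)) = _
  rw [h1, TC_apply_symm]
  rfl

variable {σ} (hσ : ∀ e ∈ atlas C2 Z, σ.transOpenPartialHomeomorph e ∈ atlas C2 Z)

include hσ in
/-- the integral is invariant -/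
theorem intX_TC {D : Ch Z → C2 → ℝ} (hD : IsDensity (n := 2) (X := Z) D) :
    P272.K.INT.intX (n := 2) (X := Z) (fun e q => D (TC σ e) q) =
      P272.K.INT.intX (n := 2) (X := Z) D := by
  apply P272.K.INT.intX_eq_of_isIntegral
  intro N e ρ he hρ hs h1
  have h2 := hD.isIntegral N (fun i => TC σ (e i)) (fun i x => ρ i (σ x))
    (fun i => hσ _ (he i)) (fun i => (hρ i).comp σ.continuous) (fun i => ?_) (fun x => h1 _)
  · rw [← h2]
    refine Finset.sum_congr rfl fun i _ => ?_
    rw [TC_target]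
    refine integral_congr_ae (Filter.Eventually.of_forall fun z => ?_)
    simp only [TC_symm, σ.apply_symm_apply]
  · rw [TC_source]
    refine (closure_minimal ?_ ((isClosed_tsupport (ρ i)).preimage σ.continuous)).trans
      (preimage_mono (hs i))
    intro x hx
    exact subset_tsupport (ρ i) hx

include hσ in
theorem cI_TC {D : Ch Z → C2 → ℂ} (hD : IsDC D) : cI (fun e q => D (TC σ e) q) = cI D := by
  rw [cI, cI, intX_TC hσ hD.re, intX_TC hσ hD.im]

end deck

end Vale.Agent.P298.H723
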