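import Vale.Agent.P298.H723.CI

/-!
# P298, S1-GEO-R3: Hodge index on one fibre, for the character spaces of a cyclic deck group
-/

set_option linter.unusedSectionVars false
set_option maxSynthPendingDepth 3

open scoped Manifold ContDiff ComplexConjugate Matrix ComplexOrder Topology
open MeasureTheory Set

noncomputable section

namespace Vale.Agent.P298.H723

open Vale.Agent Vale.Agent.P267.FL Vale.Agent.P298.H39
open Vale.Agent.P267.H469 (cj0 cj1 cj11 cjF r0cj' del10_cj r1cj cj0_cj0)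
open Vale.Agent.P267.BlockC (pair)

variable {Z : Type} [TopologicalSpace Z] [ChartedSpace C2 Z]

/-- holomorphic two-form: coefficient of `dz₀ ∧ dz₁` in the charts -/
structure IsHol2 (h : Ch Z → C2 → ℂ) : Prop where
  hol : ∀ e ∈ atlas C2 Z, DifferentiableOn ℂ (h e) e.target
  change : ∀ e ∈ atlas C2 Z, ∀ e' ∈ atlas C2 Z, ∀ x ∈ e.source, x ∈ e'.source →
    h e (e x) = (P272.K.jacM e e' x).det * h e' (e' x)

/-! ### Hodge index in the language of P267 -/

section fl

variable [IsManifold 𝓘(ℂ, C2) ω Z] [T2Space Z] [CompactSpace Z]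

theorem hodge_index_FL [ConnectedSpace Z] {w : Z → Matrix (Fin 2) (Fin 2) ℂ} (hw : IsHerm w)
    (hwc : (kf w).Closed) {F : TwoF Z} (hs : F.Smooth) (hc : F.Closed)
    (h20 : ∀ η : Z → ℂ, Reg0 ∞ 1 η → dbar0 1 η = 0 → intX (fun x => F.f20 x * conj (η x)) = 0)
    (h02 : ∀ η : Z → ℂ, Reg0 ∞ 1 η → dbar0 1 η = 0 → intX (fun x => η x * F.f02 x) = 0)
    (h11 : pair F (kf w) = 0) : (pair F (cjF F)).re ≤ 0 := by
  obtain ⟨a, ha, ha'⟩ := exact02 hs.s02 h02
  obtain ⟨c, hc1, hc2⟩ := exact02 (r0cj' hs.s20) (fun η h1 h2 => by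
    have h3 := h20 η h1 h2
    have h4 : Reg2 ∞ 1 fun x => F.f20 x * conj (η x) := reg2_mul (b := cj0 η) (r0cj' h1) hs.s20
    have h5 := intX_conj h4 (HasCompactSupport.of_compactSpace _)
    rw [h3, map_zero] at h5
    rw [← h5]
    congr 1
    funext x
    simp only [cj0, map_mul, Complex.conj_conj]
    ring)
  refine hodge_index_of hw hwc hs hc (r1cj hc1) ?_ ha ha' h11
  rw [del10_cj, hc2, cj0_cj0]

end fl

/-! ### deck transformations: forms -/

section TCs

variable {σ : Z ≃ₜ Z} (hσ : ∀ e ∈ atlas C2 Z, σ.transOpenPartialHomeomorph e ∈ atlas C2 Z)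

include hσ in
theorem iter_mem {e : Ch Z} (he : e ∈ atlas C2 Z) (k : ℕ) : (TC σ)^[k] e ∈ atlas C2 Z := by
  induction k with
  | zero => exact he
  | succ k ih =>
    rw [Function.iterate_succ_apply']
    exact hσ _ ih

theorem iter_target (e : Ch Z) (k : ℕ) : ((TC σ)^[k] e).target = e.target := by
  induction k with
  | zero => rfl
  | succ k ih =>
    rw [Function.iterate_succ_apply', TC_target, ih]

theorem iter_apply (e : Ch Z) (k : ℕ) (x : Z) : ((TC σ)^[k] e) x = e (σ^[k] x) := by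
  induction k generalizing x with
  | zero => rfl
  | succ k ih =>
    rw [Function.iterate_succ_apply', TC_apply, ih, Function.iterate_succ_apply]

theorem iter_source (e : Ch Z) (k : ℕ) : ((TC σ)^[k] e).source = σ^[k] ⁻¹' e.source := by
  induction k with
  | zero => rfl
  | succ k ih =>
    rw [Function.iterate_succ_apply', TC_source, ih, ← preimage_comp, ← Function.iterate_succ]

theorem iter_symm (e : Ch Z) (k : ℕ) (q : C2) :
    ((TC σ)^[k] e).symm q = σ.symm^[k] (e.symm q) := by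
  induction k with
  | zero => rfl
  | succ k ih =>
    rw [Function.iterate_succ_apply', TC_symm, ih, Function.iterate_succ_apply']

theorem iter_self {m : ℕ} (hσm : ∀ x, σ^[m] x = x) (e : Ch Z) : (TC σ)^[m] e = e := by
  apply OpenPartialHomeomorph.ext
  · intro x
    rw [iter_apply, hσm]
  · intro q
    rw [iter_symm]
    have h1 : Function.LeftInverse (σ.symm^[m]) (σ^[m]) :=
      Function.LeftInverse.iterate σ.symm_apply_apply m
    have h2 := h1 (e.symm q)
    rw [hσm] at h2
    exact h2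
  · rw [iter_source]
    ext x
    rw [mem_preimage, hσm]

include hσ in
theorem IsDC.TC {D : Ch Z → C2 → ℂ} (h : IsDC D) : IsDC fun e q => D (TC σ e) q where
  cont e he x hx := by
    have h1 := h.cont _ (hσ e he) (σ.symm x) (TC_mem σ e hx)
    have h2 : (σ.transOpenPartialHomeomorph e) (σ.symm x) = e x := TC_apply_symm σ e x
    rw [h2] at h1
    exact h1
  change e he e' he' x hx hx' := by
    have h1 := h.change _ (hσ e he) _ (hσ e' he') (σ.symm x) (TC_mem σ e hx) (TC_mem σ e' hx')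
    have h2 : (σ.transOpenPartialHomeomorph e) (σ.symm x) = e x := TC_apply_symm σ e x
    have h3 : (σ.transOpenPartialHomeomorph e') (σ.symm x) = e' x := TC_apply_symm σ e' x
    have h4 := TC_jacM σ e e' x
    rw [h2, h3] at h1
    rw [← h4]
    exact h1

include hσ in
theorem IsHol2.TC {h : Ch Z → C2 → ℂ} (hh : IsHol2 h) : IsHol2 fun e q => h (TC σ e) q where
  hol e he := hh.hol _ (hσ e he)
  change e he e' he' x hx hx' := by
    have h1 := hh.change _ (hσ e he) _ (hσ e' he') (σ.symm x) (TC_mem σ e hx) (TC_mem σ e' hx')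
    have h2 : (σ.transOpenPartialHomeomorph e) (σ.symm x) = e x := TC_apply_symm σ e x
    have h3 : (σ.transOpenPartialHomeomorph e') (σ.symm x) = e' x := TC_apply_symm σ e' x
    have h4 := TC_jacM σ e e' x
    rw [h2, h3] at h1
    rw [← h4]
    exact h1

include hσ in
theorem IsDC.iter {D : Ch Z → C2 → ℂ} (h : IsDC D) (k : ℕ) :
    IsDC fun e q => D ((H723.TC σ)^[k] e) q := by
  induction k with
  | zero => exact h
  | succ k ih => exact ih.TC hσ

include hσ in
theorem IsHol2.iter {h : Ch Z → C2 → ℂ} (hh : IsHol2 h) (k : ℕ) :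
    IsHol2 fun e q => h ((H723.TC σ)^[k] e) q := by
  induction k with
  | zero => exact hh
  | succ k ih => exact ih.TC hσ

include hσ in
theorem cI_iter [IsManifold 𝓘(ℂ, C2) ω Z] [T2Space Z] [CompactSpace Z] {D : Ch Z → C2 → ℂ}
    (h : IsDC D) (k : ℕ) : cI (fun e q => D ((TC σ)^[k] e) q) = cI D := by
  induction k with
  | zero => rfl
  | succ k ih =>
    have h1 := cI_TC hσ (h.iter hσ k)
    rw [← ih, ← h1]
    rfl

theorem IsHol2.const_mul {h : Ch Z → C2 → ℂ} (hh : IsHol2 h) (c : ℂ) :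
    IsHol2 fun e q => c * h e q where
  hol e he := (hh.hol e he).const_mul c
  change e he e' he' x hx hx' := by
    simp only [hh.change e he e' he' x hx hx']
    ring

theorem IsHol2.add {h h' : Ch Z → C2 → ℂ} (hh : IsHol2 h) (hh' : IsHol2 h') :
    IsHol2 fun e q => h e q + h' e q where
  hol e he := (hh.hol e he).add (hh'.hol e he)
  change e he e' he' x hx hx' := by
    simp only [hh.change e he e' he' x hx hx', hh'.change e he e' he' x hx hx']
    ring

theorem IsHol2.zero : IsHol2 fun (_ : Ch Z) (_ : C2) => (0 : ℂ) where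
  hol _ _ := differentiableOn_const _
  change _ _ _ _ _ _ _ := by simp

theorem IsHol2.sum {ι : Type} (s : Finset ι) {h : ι → Ch Z → C2 → ℂ}
    (hh : ∀ i ∈ s, IsHol2 (h i)) : IsHol2 fun e q => ∑ i ∈ s, h i e q := by
  classical
  induction s using Finset.induction_on with
  | empty => simpa using IsHol2.zero
  | insert a s ha ih =>
    simp only [Finset.sum_insert ha]
    exact (hh a (Finset.mem_insert_self a s)).add
      (ih fun i hi => hh i (Finset.mem_insert_of_mem hi))

/-- the projection to a character space -/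
def hav (σ : Z ≃ₜ Z) (m : ℕ) (ψ : ℂ) (h : Ch Z → C2 → ℂ) (e : Ch Z) (q : C2) : ℂ :=
  ∑ k ∈ Finset.range m, ψ ^ k * h ((TC σ)^[k] e) q

include hσ in
theorem isHol2_hav {m : ℕ} (ψ : ℂ) {h : Ch Z → C2 → ℂ} (hh : IsHol2 h) :
    IsHol2 (hav σ m ψ h) :=
  IsHol2.sum _ fun k _ => (hh.iter hσ k).const_mul (ψ ^ k)

theorem hav_char {m : ℕ} (hσm : ∀ x, σ^[m] x = x) {ψ : ℂ} (hψ : ψ ^ m = 1)
    (h : Ch Z → C2 → ℂ) (e : Ch Z) (q : C2) : hav σ m ψ h e q = ψ * hav σ m ψ h (TC σ e) q := by
  have h1 : ψ * hav σ m ψ h (TC σ e) q =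
      ∑ k ∈ Finset.range m, ψ ^ (k + 1) * h ((TC σ)^[k + 1] e) q := by
    rw [hav, Finset.mul_sum]
    refine Finset.sum_congr rfl fun k _ => ?_
    rw [Function.iterate_succ_apply, pow_succ]
    ring
  have h2 := Finset.sum_range_succ (fun k => ψ ^ k * h ((TC σ)^[k] e) q) m
  have h3 := Finset.sum_range_succ' (fun k => ψ ^ k * h ((TC σ)^[k] e) q) m
  rw [h2] at h3
  rw [h1, hav]
  have h4 : ψ ^ m * h ((TC σ)^[m] e) q = ψ ^ 0 * h ((TC σ)^[0] e) q := by
    rw [iter_self hσm, hψ, pow_zero]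
    rfl
  rw [h4] at h3
  exact add_right_cancel h3

include hσ in
theorem char_iter {χ : ℂ} {α : Ch Z → C2 → BF}
    (hαχ : ∀ e ∈ atlas C2 Z, ∀ q ∈ e.target, α e q = χ • α (TC σ e) q) (k : ℕ) :
    ∀ e ∈ atlas C2 Z, ∀ q ∈ e.target, α e q = χ ^ k • α ((TC σ)^[k] e) q := by
  induction k with
  | zero =>
    intro e he q hq
    rw [pow_zero, one_smul]
    rfl
  | succ k ih =>
    intro e he q hq
    rw [ih e he q hq, hαχ _ (iter_mem hσ he k) q (by rw [iter_target]; exact hq), smul_smul,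
      Function.iterate_succ_apply', pow_succ]

end TCs

theorem root_conj {χ : ℂ} {m : ℕ} (hm : 0 < m) (hχ : χ ^ m = 1) : conj χ * χ = 1 := by
  have h1 : ‖χ‖ = 1 := by
    have h2 : ‖χ‖ ^ m = 1 := by rw [← norm_pow, hχ, norm_one]
    exact (pow_eq_one_iff_of_nonneg (norm_nonneg _) hm.ne').1 h2
  rw [mul_comm, Complex.mul_conj, Complex.normSq_eq_norm_sq, h1]
  norm_num

theorem cA_smul (c : ℂ) (β : BF) : cA (c • β) = c * cA β := by
  simp only [cA, Ev_apply, smul_apply, smul_eq_mul]
  ring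

theorem cC_smul (c : ℂ) (β : BF) : cC (c • β) = c * cC β := by
  simp only [cC, Ev_apply, smul_apply, smul_eq_mul]
  ring

theorem cB_smul (c : ℂ) (β : BF) (i j : Fin 2) : cB i j (c • β) = c * cB i j β := by
  simp only [cB, Ev_apply, smul_apply, smul_eq_mul]
  ring

theorem prh_dzz {β : BF} (h : Alt β) (c : ℂ) : prh β (c • dzz) = 4 * (cA β * conj c) := by
  obtain ⟨h1, h2, h3⟩ := comp_dzz c
  rw [prh, prg_eq h (alt_cjB (alt_dzz c)), cC_cj, cA_cj, h1, h2]
  simp only [cB_cj (alt_dzz c), h3]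
  simp

theorem cjB_cjB (β : BF) : cjB (cjB β) = β := by
  ext u v
  rw [cjB_apply, cjB_apply, Complex.conj_conj]

theorem prh_cj_dzz {β : BF} (h : Alt β) (c : ℂ) : prh β (cjB (c • dzz)) = 4 * (cC β * c) := by
  obtain ⟨h1, h2, h3⟩ := comp_dzz c
  rw [prh, cjB_cjB, prg_eq h (alt_dzz c), h1, h2]
  simp only [h3]
  simp

/-! ### the metric -/

section met

variable {w w' : Ch Z → C2 → Matrix (Fin 2) (Fin 2) ℂ}

theorem kahler_add (hw : P272.K.IsKahler w) (hw' : P272.K.IsKahler w') :
    P272.K.IsKahler fun e q => w e q + w' e q where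
  smooth e x hx i j := (hw.smooth e x hx i j).add (hw'.smooth e x hx i j)
  posDef e x hx := (hw.posDef e x hx).add (hw'.posDef e x hx)
  change e e' x hx hx' := by
    show w e (e x) + w' e (e x) = _
    rw [hw.change e e' x hx hx', hw'.change e e' x hx hx', Matrix.mul_add, Matrix.add_mul]
  closed e x hx i j k := by
    have a1 := fun i j => (hw.smooth e x hx i j).differentiableAt (by simp)
    have a2 := fun i j => (hw'.smooth e x hx i j).differentiableAt (by simp)
    show P272.K.dz k (fun z => w e z i j + w' e z i j) (e x) =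
      P272.K.dz i (fun z => w e z k j + w' e z k j) (e x)
    rw [P272.K.dz_add (a1 i j) (a2 i j), P272.K.dz_add (a1 k j) (a2 k j),
      hw.closed e x hx, hw'.closed e x hx]

variable {σ : Z ≃ₜ Z} (hσ : ∀ e ∈ atlas C2 Z, σ.transOpenPartialHomeomorph e ∈ atlas C2 Z)

include hσ in
theorem kahler_TC (hw : P272.K.IsKahler w) : P272.K.IsKahler fun e q => w (TC σ e) q where
  smooth e x hx i j := by
    have h1 := hw.smooth _ (σ.symm x) ⟨hσ e hx.1, TC_mem σ e hx.2⟩ i j
    have h2 : (σ.transOpenPartialHomeomorph e) (σ.symm x) = e x := TC_apply_symm σ e x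
    rw [h2] at h1
    exact h1
  posDef e x hx := by
    have h1 := hw.posDef _ (σ.symm x) ⟨hσ e hx.1, TC_mem σ e hx.2⟩
    have h2 : (σ.transOpenPartialHomeomorph e) (σ.symm x) = e x := TC_apply_symm σ e x
    rw [h2] at h1
    exact h1
  change e e' x hx hx' := by
    have h1 := hw.change _ _ (σ.symm x) ⟨hσ e hx.1, TC_mem σ e hx.2⟩
      ⟨hσ e' hx'.1, TC_mem σ e' hx'.2⟩
    have h2 : (σ.transOpenPartialHomeomorph e) (σ.symm x) = e x := TC_apply_symm σ e x
    have h3 : (σ.transOpenPartialHomeomorph e') (σ.symm x) = e' x := TC_apply_symm σ e' x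
    have h4 := TC_jacM σ e e' x
    rw [h2, h3] at h1
    rw [← h4]
    exact h1
  closed e x hx i j k := by
    have h1 := hw.closed _ (σ.symm x) ⟨hσ e hx.1, TC_mem σ e hx.2⟩ i j k
    have h2 : (σ.transOpenPartialHomeomorph e) (σ.symm x) = e x := TC_apply_symm σ e x
    rw [h2] at h1
    exact h1

include hσ in
theorem kahler_iter (hw : P272.K.IsKahler w) (k : ℕ) :
    P272.K.IsKahler fun e q => w ((TC σ)^[k] e) q := by
  induction k with
  | zero => exact hw
  | succ k ih => exact kahler_TC hσ ih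

/-- the averaged metric -/
def wav (σ : Z ≃ₜ Z) (m : ℕ) (w : Ch Z → C2 → Matrix (Fin 2) (Fin 2) ℂ) (e : Ch Z) (q : C2) :
    Matrix (Fin 2) (Fin 2) ℂ :=
  ∑ k ∈ Finset.range m, w ((TC σ)^[k] e) q

include hσ in
theorem kahler_wav (hw : P272.K.IsKahler w) {m : ℕ} (hm : 0 < m) :
    P272.K.IsKahler (wav σ m w) := by
  obtain ⟨n, rfl⟩ : ∃ n, m = n + 1 := ⟨m - 1, by omega⟩
  clear hm
  induction n with
  | zero =>
    have : wav σ (0 + 1) w = fun e q => w e q := by
      funext e q
      simp [wav]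
    rw [this]
    exact hw
  | succ n ih =>
    have : wav σ (n + 1 + 1) w = fun e q => wav σ (n + 1) w e q + w ((TC σ)^[n + 1] e) q := by
      funext e q
      rw [wav, Finset.sum_range_succ]
      rfl
    rw [this]
    exact kahler_add ih (kahler_iter hσ hw (n + 1))

theorem wav_TC {m : ℕ} (hσm : ∀ x, σ^[m] x = x) (e : Ch Z) (q : C2) :
    wav σ m w (TC σ e) q = wav σ m w e q := by
  have h1 : wav σ m w (TC σ e) q = ∑ k ∈ Finset.range m, w ((TC σ)^[k + 1] e) q := by
    rw [wav]
    refine Finset.sum_congr rfl fun k _ => ?_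
    rw [Function.iterate_succ_apply]
  have h2 := Finset.sum_range_succ (fun k => w ((TC σ)^[k] e) q) m
  have h3 := Finset.sum_range_succ' (fun k => w ((TC σ)^[k] e) q) m
  rw [h2] at h3
  rw [h1, wav]
  have h4 : w ((TC σ)^[m] e) q = w ((TC σ)^[0] e) q := by
    rw [iter_self hσm]
    rfl
  rw [h4] at h3
  exact (add_right_cancel h3).symm

/-- the metric as a function on the surface -/
def wF (w : Ch Z → C2 → Matrix (Fin 2) (Fin 2) ℂ) (x : Z) : Matrix (Fin 2) (Fin 2) ℂ :=
  w (chartAt C2 x) (chartAt C2 x x)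

variable [IsManifold 𝓘(ℂ, C2) ω Z]

theorem loc11_wF (hw : P272.K.IsKahler w) {e : Ch Z} (he : e ∈ atlas C2 Z) {q : C2}
    (hq : q ∈ e.target) : loc11 e (wF w) q = w e q := by
  rw [P267.H661.loc11_eq]
  have hx : P272.K.At e (e.symm q) := ⟨he, e.map_target hq⟩
  have h1 := hw.change e (chartAt C2 (e.symm q)) (e.symm q) hx (P267.H661.at_chart _)
  rw [e.right_inv hq] at h1
  rw [h1, P267.H661.jac_eq]
  rfl

theorem isHerm_wF (hw : P272.K.IsKahler w) : IsHerm (wF w) where
  posDef x := hw.posDef _ x (P267.H661.at_chart x)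
  smooth e he i j := by
    refine ContDiffOn.congr (fun q hq => ?_) fun q hq => by rw [loc11_wF hw he hq]
    have h1 := hw.smooth e (e.symm q) ⟨he, e.map_target hq⟩ i j
    rw [e.right_inv hq] at h1
    exact h1.contDiffWithinAt

theorem closed_wF (hw : P272.K.IsKahler w) : (kf (wF w)).Closed := by
  have key : ∀ x : Z, ∀ i j, (fun z => loc11 (chartAt C2 x) (wF w) z i j) =ᶠ[𝓝 (chartAt C2 x x)]
      fun z => w (chartAt C2 x) z i j := by
    intro x i j
    filter_upwards [(chartAt C2 x).open_target.mem_nhds (mem_chart_target C2 x)] with z hz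
    rw [loc11_wF hw (chart_mem_atlas C2 x) hz]
  have key2 : ∀ x : Z, ∀ i j, (fun z => w (chartAt C2 x) z i j) =ᶠ[𝓝 (chartAt C2 x x)]
      fun z => conj (w (chartAt C2 x) z j i) := by
    intro x i j
    filter_upwards [(chartAt C2 x).open_target.mem_nhds (mem_chart_target C2 x)] with z hz
    have h1 := hw.posDef (chartAt C2 x) ((chartAt C2 x).symm z)
      ⟨chart_mem_atlas C2 x, (chartAt C2 x).map_target hz⟩
    rw [(chartAt C2 x).right_inv hz] at h1
    exact (h1.1.apply i j).symm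
  have hcl : ∀ x : Z, ∀ i j k, dz k (fun z => w (chartAt C2 x) z i j) (chartAt C2 x x) =
      dz i (fun z => w (chartAt C2 x) z k j) (chartAt C2 x x) := by
    intro x i j k
    rw [P267.H661.dz_eq, P267.H661.dz_eq]
    exact hw.closed _ x (P267.H661.at_chart x) i j k
  constructor
  · intro x j
    have h0 : dbar0 1 (kf (wF w)).f20 x j = 0 := by
      have h1 : loc0 1 (chartAt C2 x) (kf (wF w)).f20 = fun _ => (0 : ℂ) := by
        funext z
        simp [loc0, kf]
      rw [dbar0, h1]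
      simp [dzb]
    rw [TwoF.d21, h0, zero_add]
    show dz 0 (fun z => loc11 (chartAt C2 x) (wF w) z 1 j) (chartAt C2 x x) -
      dz 1 (fun z => loc11 (chartAt C2 x) (wF w) z 0 j) (chartAt C2 x x) = 0
    rw [P267.H469.dz_congr (key x 1 j), P267.H469.dz_congr (key x 0 j), hcl x 1 j 0, sub_self]
  · intro x i
    have h0 : dz i (loc2 0 (chartAt C2 x) (kf (wF w)).f02) (chartAt C2 x x) = 0 := by
      have h1 : loc2 0 (chartAt C2 x) (kf (wF w)).f02 = fun _ => (0 : ℂ) := by
        funext z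
        simp [loc2, kf]
      rw [h1]
      simp [dz]
    rw [TwoF.d12, h0, zero_sub, neg_eq_zero]
    show dzb 0 (fun z => loc11 (chartAt C2 x) (wF w) z i 1) (chartAt C2 x x) -
      dzb 1 (fun z => loc11 (chartAt C2 x) (wF w) z i 0) (chartAt C2 x x) = 0
    rw [P267.H469.dzb_congr (key x i 1), P267.H469.dzb_congr (key x i 0),
      P267.H469.dzb_congr (key2 x i 1), P267.H469.dzb_congr (key2 x i 0),
      P267.H469.dzb_conj, P267.H469.dzb_conj, hcl x 1 i 0, sub_self]

end met

end Vale.Agent.P298.H723
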