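import Vale.Agent.P298.H723.Res3

/-!
# P298, S1-GEO: types and positivity of the pairing
-/

set_option linter.unusedSectionVars false
set_option maxSynthPendingDepth 3

open scoped Manifold ContDiff ComplexConjugate Matrix ComplexOrder Topology
open MeasureTheory Set

noncomputable section

namespace Vale.Agent.P298.H723

open Vale.Agent.P298.H39
open Vale.Agent.P272.K (Cm Chart At)
open Vale.Agent.P272.K.INT (IsDensity intX part)

/-! ### types -/

theorem single_I (i : Fin 2) : (Pi.single i Complex.I : Cm 2) = Complex.I • Pi.single i 1 := by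
  rw [← Pi.single_smul]; simp

theorem ty20_cB {β : BF} (h : Ty20 β) (i j : Fin 2) : cB i j β = 0 := by
  have h1 := (h (Pi.single i 1) (Pi.single j 1)).1
  have h2 := (h (Pi.single i 1) (Pi.single j 1)).2
  have h3 := (h (Pi.single i 1) (Complex.I • Pi.single j 1)).1
  simp only [cB, Ev_apply, single_I, h1, h2, h3]
  linear_combination (-(1 / 4 : ℂ) * β (Pi.single i 1) (Pi.single j 1) *
    (Complex.I * Complex.I - 1)) * Complex.I_mul_I

theorem ty20_cC {β : BF} (h : Ty20 β) : cC β = 0 := by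
  have h1 := (h (Pi.single 0 1) (Pi.single 1 1)).1
  have h2 := (h (Pi.single 0 1) (Pi.single 1 1)).2
  have h3 := (h (Pi.single 0 1) (Complex.I • Pi.single 1 1)).1
  simp only [cC, Ev_apply, single_I, h1, h2, h3]
  linear_combination ((1 / 4 : ℂ) * β (Pi.single 0 1) (Pi.single 1 1) *
    (1 + Complex.I * Complex.I)) * Complex.I_mul_I

theorem ty20_cA {β : BF} (h : Ty20 β) : cA β = β (Pi.single 0 1) (Pi.single 1 1) := by
  have h1 := (h (Pi.single 0 1) (Pi.single 1 1)).1
  have h2 := (h (Pi.single 0 1) (Pi.single 1 1)).2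
  have h3 := (h (Pi.single 0 1) (Complex.I • Pi.single 1 1)).1
  simp only [cA, Ev_apply, single_I, h1, h2, h3]
  linear_combination ((1 / 4 : ℂ) * β (Pi.single 0 1) (Pi.single 1 1) *
    (Complex.I * Complex.I - 3)) * Complex.I_mul_I

theorem ty02_cj {β : BF} (h : Ty20 β) : Ty02 (cjB β) := by
  intro u v
  simp only [cjB_apply, (h u v).1, (h u v).2, map_mul, Complex.conj_I, and_self]

theorem ty20_cj {β : BF} (h : Ty02 β) : Ty20 (cjB β) := by
  intro u v
  simp only [cjB_apply, (h u v).1, (h u v).2, map_mul, map_neg, Complex.conj_I, neg_neg, and_self]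

theorem ty02_cB {β : BF} (hA : Alt β) (h : Ty02 β) (i j : Fin 2) : cB i j β = 0 := by
  have h1 := ty20_cB (ty20_cj h) j i
  rw [cB_cj hA, neg_eq_zero] at h1
  simpa using h1

theorem ty02_cA {β : BF} (h : Ty02 β) : cA β = 0 := by
  have h1 := ty20_cC (ty20_cj h)
  rw [cC_cj] at h1
  simpa using h1

theorem prh_20_20 {α β : BF} (hα : Alt α) (hβ : Alt β) (h1 : Ty20 α) :
    prh α β = 4 * (cA α * conj (cA β)) := by
  rw [prh, prg_eq hα (alt_cjB hβ), cC_cj, cA_cj, ty20_cB h1, ty20_cB h1, ty20_cB h1, ty20_cB h1,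
    ty20_cC h1]
  ring

theorem prh_02_02 {α β : BF} (hα : Alt α) (hβ : Alt β) (h1 : Ty02 α) :
    prh α β = 4 * (cC α * conj (cC β)) := by
  rw [prh, prg_eq hα (alt_cjB hβ), cC_cj, cA_cj, ty02_cB hα h1, ty02_cB hα h1, ty02_cB hα h1,
    ty02_cB hα h1, ty02_cA h1]
  ring

theorem prh_20_02 {α β : BF} (hα : Alt α) (hβ : Alt β) (h1 : Ty20 α) (h2 : Ty02 β) :
    prh α β = 0 := by
  rw [prh, prg_eq hα (alt_cjB hβ), cC_cj, cA_cj, ty20_cB h1, ty20_cB h1, ty20_cB h1, ty20_cB h1,
    ty20_cC h1, ty02_cA h2]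
  simp

theorem prh_02_20 {α β : BF} (hα : Alt α) (hβ : Alt β) (h1 : Ty02 α) (h2 : Ty20 β) :
    prh α β = 0 := by
  rw [prh, prg_eq hα (alt_cjB hβ), cC_cj, cA_cj, ty02_cB hα h1, ty02_cB hα h1, ty02_cB hα h1,
    ty02_cB hα h1, ty02_cA h1, ty20_cC h2]
  simp

theorem ty20_eq_zero {β : BF} (hA : Alt β) (h : Ty20 β) (h0 : cA β = 0) : β = 0 := by
  ext u v
  rw [rep_eq hA, rep]
  simp [ty20_cB h, ty20_cC h, h0]

theorem ty02_eq_zero {β : BF} (hA : Alt β) (h : Ty02 β) (h0 : cC β = 0) : β = 0 := by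
  ext u v
  rw [rep_eq hA, rep]
  simp [ty02_cB hA h, ty02_cA h, h0]

/-! ### positivity -/

section pos

variable {X : Type} [TopologicalSpace X] [ChartedSpace (Cm 2) X] [IsManifold 𝓘(ℂ, Cm 2) ω X]
  [T2Space X] [CompactSpace X]

/-- the integral of a nonnegative density which is positive somewhere is positive -/
theorem intX_pos' {D : Chart 2 X → Cm 2 → ℝ} (hD : IsDensity D)
    (h : ∀ e x, At e x → 0 ≤ D e (e x)) {e0 : Chart 2 X} {x : X} (hx0 : At e0 x)
    (h0 : 0 < D e0 (e0 x)) : 0 < intX D := by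
  set P := part 2 X with hP
  have h1 : ∃ i, 0 < P.ρ i x := by
    by_contra hcon
    push Not at hcon
    have := P.sum x
    have h2 : ∑ i, P.ρ i x ≤ 0 := Finset.sum_nonpos fun i _ => hcon i
    linarith
  obtain ⟨i, hi⟩ := h1
  have hDi : ∀ j, ∀ z ∈ (P.e j).target, 0 ≤ D (P.e j) z := fun j z hz => by
    have := h (P.e j) ((P.e j).symm z) ⟨P.mem j, (P.e j).map_target hz⟩
    rwa [(P.e j).right_inv hz] at this
  unfold intX
  rw [← hP]
  refine Finset.sum_pos' (fun j _ => ?_) ⟨i, Finset.mem_univ i, ?_⟩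
  · refine setIntegral_nonneg (P.e j).open_target.measurableSet fun z hz => ?_
    exact mul_nonneg (P.nonneg j _) (hDi j z hz)
  · have hx : x ∈ (P.e i).source := P.supp i (subset_tsupport _ (by
      simp only [Function.mem_support]; exact hi.ne'))
    have hAt : At (P.e i) x := ⟨P.mem i, hx⟩
    have hDx : 0 < D (P.e i) (P.e i x) := by
      have h2 := hD.change (P.e i) e0 x hAt hx0
      have h3 := hD.change e0 (P.e i) x hx0 hAt
      have h4 := h (P.e i) x hAt
      rcases h4.lt_or_eq with h5 | h5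
      · exact h5
      · exfalso
        rw [← h5, zero_mul] at h3
        exact h0.ne' h3
    have hc : ContinuousAt (fun z => P.ρ i ((P.e i).symm z) * D (P.e i) z) (P.e i x) := by
      refine ContinuousAt.mul ?_ (hD.cont (P.e i) x hAt)
      exact ContinuousAt.comp (g := P.ρ i) (P.cont i).continuousAt
        ((P.e i).continuousAt_symm ((P.e i).map_source hx))
    have hv : 0 < P.ρ i ((P.e i).symm (P.e i x)) * D (P.e i) (P.e i x) := by
      rw [(P.e i).left_inv hx]
      exact mul_pos hi hDx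
    rw [setIntegral_pos_iff_support_of_nonneg_ae]
    · have h6 : ∀ᶠ z in 𝓝 (P.e i x), 0 < P.ρ i ((P.e i).symm z) * D (P.e i) z :=
        hc.eventually (lt_mem_nhds hv)
      obtain ⟨V, hV1, hVo, hV2⟩ := mem_nhds_iff.mp
        (h6.and ((P.e i).open_target.mem_nhds ((P.e i).map_source hx)))
      refine (hVo.measure_pos volume ⟨P.e i x, hV2⟩).trans_le (measure_mono ?_)
      intro z hz
      have h7 := hV1 hz
      refine ⟨?_, h7.2⟩
      simp only [Function.mem_support]
      exact h7.1.ne'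
    · filter_upwards [self_mem_ae_restrict (P.e i).open_target.measurableSet] with z hz
      exact mul_nonneg (P.nonneg i _) (hDi i z hz)
    · exact P272.K.INT.integrableOn_part P hD i

end pos

section fam

variable {Z : Type} [TopologicalSpace Z] [T2Space Z] {F : Fam Z} {t : ℂ}

theorem intF_re [CompactSpace (F.Fib t)] (ht : t ∈ F.Ω) (D : PC Z → Cm 2 × ℂ → ℂ) :
    (intF F t D).re = intX (n := 2) (X := F.Fib t) fun f w => (res F t D f w).re := by
  rw [intF_def ht]
  simp

/-- positivity of the pairing on forms of pure type `(2,0)` or `(0,2)` -/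
theorem intF_prh_pos (ht : t ∈ F.Ω) {a : PC Z → Cm 2 × ℂ → BF} (ha : IsRF2 F a)
    (hT : (∀ e ∈ F.A, ∀ q ∈ e.target, q.2 = t → Ty20 (a e q)) ∨
      (∀ e ∈ F.A, ∀ q ∈ e.target, q.2 = t → Ty02 (a e q)))
    {e0 : PC Z} (he0 : e0 ∈ F.A) {w0 : Cm 2} (hw0 : (w0, t) ∈ e0.target)
    (hne : a e0 (w0, t) ≠ 0) :
    0 < (intF F t fun e q => prh (a e q) (a e q)).re := by
  have := F.compact_fib ht
  have hden := isDen_prh ha ha
  have key : ∀ e ∈ F.A, ∀ q ∈ e.target, q.2 = t → 0 ≤ (prh (a e q) (a e q)).re ∧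
      ((prh (a e q) (a e q)).re = 0 → a e q = 0) := by
    intro e he q hq hqt
    have hA : Alt (a e q) := ha.alt e he q hq
    rcases hT with hT | hT
    · have h1 := hT e he q hq hqt
      rw [prh_20_20 hA hA h1, Complex.mul_conj]
      have h2 : ((4 : ℂ) * (Complex.normSq (cA (a e q)) : ℂ)).re =
          4 * Complex.normSq (cA (a e q)) := by
        rw [← Complex.ofReal_ofNat, ← Complex.ofReal_mul, Complex.ofReal_re]
      rw [h2]
      refine ⟨mul_nonneg (by norm_num) (Complex.normSq_nonneg _), fun h3 => ty20_eq_zero hA h1 ?_⟩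
      have h4 : Complex.normSq (cA (a e q)) = 0 := by linarith
      exact Complex.normSq_eq_zero.1 h4
    · have h1 := hT e he q hq hqt
      rw [prh_02_02 hA hA h1, Complex.mul_conj]
      have h2 : ((4 : ℂ) * (Complex.normSq (cC (a e q)) : ℂ)).re =
          4 * Complex.normSq (cC (a e q)) := by
        rw [← Complex.ofReal_ofNat, ← Complex.ofReal_mul, Complex.ofReal_re]
      rw [h2]
      refine ⟨mul_nonneg (by norm_num) (Complex.normSq_nonneg _), fun h3 => ty02_eq_zero hA h1 ?_⟩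
      have h4 : Complex.normSq (cC (a e q)) = 0 := by linarith
      exact Complex.normSq_eq_zero.1 h4
  rw [intF_re ht]
  set z0 : F.Fib t := ⟨e0.symm (w0, t), Fam.p_symm he0 hw0⟩ with hz0
  set f0 := fch z0 e0 he0 with hf0
  have hF0 : IsFC F t f0 e0 := isFC_fch z0 he0
  have hs0 : z0 ∈ f0.source := e0.map_target hw0
  have he0z : e0 z0.val = (w0, t) := e0.right_inv hw0
  refine intX_pos' (hden.isDensity_re t) ?_ (e0 := f0) (x := z0) ⟨⟨e0, hF0⟩, hs0⟩ ?_
  · intro f x hx
    obtain ⟨e, he⟩ := mem_atlas_fib.mp hx.1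
    show 0 ≤ (res F t (fun e q => prh (a e q) (a e q)) f (f x)).re
    rw [hden.res_apply he hx.2]
    refine (key e he.mem _ (e.map_source ((he.src x).mp hx.2)) ?_).1
    rw [he.apply hx.2]
  · show 0 < (res F t (fun e q => prh (a e q) (a e q)) f0 (f0 z0)).re
    rw [hden.res_apply hF0 hs0, he0z]
    have h1 := key e0 he0 (w0, t) hw0 rfl
    rcases h1.1.lt_or_eq with h2 | h2
    · exact h2
    · exact absurd (h1.2 h2.symm) hne

end fam

end Vale.Agent.P298.H723
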