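import Vale.Agent.P298.H723.C12a
import Vale.Agent.P298.H723.Pos
import Vale.Agent.P298.H863.C10
import Vale.Agent.P298.H845.Main

/-!
# P298, S1-GEO, R0/E3: the holomorphic frames of the cyclic covers
-/

set_option linter.unusedSectionVars false
set_option maxSynthPendingDepth 3

open scoped Manifold ContDiff ComplexConjugate Matrix Topology
open Set Filter

noncomputable section

namespace Vale.Agent.P298.H723

open Vale.Agent.P298.H39 Vale.Agent.P298.H863
open Vale.Agent.P272.K (Cm Chart)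

theorem smd_eq (c : ℂ) : (smd c : BF) = c • dzz := by
  ext u v
  rfl

section lin

variable {K : ℕ} {Ω : Set ℂ} {G : ℂ × VN (K + 3) → (Fin K → ℂ)} {dg : Fin K → ℕ} {N : ℕ}

theorem hpol_sum {ι : Type} (s : Finset ι) (c : ι → ℂ) {P : ι → ℂ × VN (K + 3) → ℂ}
    (hP : ∀ i ∈ s, HPol Ω (P i) N) : HPol Ω (fun y => ∑ i ∈ s, c i * P i y) N where
  an t ht z hz := Finset.analyticAt_fun_sum _ fun i hi =>
    analyticAt_const.mul ((hP i hi).an t ht z hz)
  hom t ht a ha z := by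
    rw [Finset.mul_sum]
    refine Finset.sum_congr rfl fun i hi => ?_
    rw [(hP i hi).hom t ht a ha z]
    ring

theorem cf_sum (h : CIF Ω G dg) (hN : N + (K + 3) = ∑ k, dg k) {ι : Type} (s : Finset ι)
    (c : ι → ℂ) {P : ι → ℂ × VN (K + 3) → ℂ} (hP : ∀ i ∈ s, HPol Ω (P i) N) {e : PC (TZ Ω G)}
    (he : IsPC e) {q : Cm 2 × ℂ} (hq : q ∈ e.target) :
    cf (fun y => ∑ i ∈ s, c i * P i y) e q = ∑ i ∈ s, c i * cf (P i) e q := by
  obtain ⟨L, hL⟩ := he.exists_isL hq
  rw [cf_eq h (hpol_sum s c hP) hN he hq hL, cfL, Finset.sum_mul]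
  refine Finset.sum_congr rfl fun i hi => ?_
  rw [cf_eq h (hP i hi) hN he hq hL, cfL]
  ring

end lin

/-! ### polynomials -/

/-- exponents of degree `k` with last exponent `< d` -/
def ix (k d : ℕ) : Finset (Fin (1 + 3) →₀ ℕ) :=
  (Finset.finsuppAntidiag Finset.univ k).filter fun s => s (Fin.last 3) < d

theorem mem_ix {k d : ℕ} {s : Fin (1 + 3) →₀ ℕ} :
    s ∈ ix k d ↔ s.degree = k ∧ s (Fin.last 3) < d := by
  rw [ix, Finset.mem_filter, Finset.mem_finsuppAntidiag, Finsupp.degree_eq_sum]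
  simp

/-- number of exponents -/
def nix (k d : ℕ) : ℕ := (ix k d).card

/-- the exponents -/
def mon (k d : ℕ) (i : Fin (nix k d)) : Fin (1 + 3) →₀ ℕ := ((ix k d).equivFin.symm i).1

theorem mon_mem (k d : ℕ) (i : Fin (nix k d)) : mon k d i ∈ ix k d := ((ix k d).equivFin.symm i).2

theorem mon_injective (k d : ℕ) : Function.Injective (mon k d) := fun _ _ h =>
  (ix k d).equivFin.symm.injective (Subtype.ext h)

theorem sum_mon {k d : ℕ} {E : Type*} [AddCommMonoid E] (f : (Fin (1 + 3) →₀ ℕ) → E) :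
    ∑ s ∈ ix k d, f s = ∑ i, f (mon k d i) := by
  rw [← Finset.sum_coe_sort (ix k d) f]
  exact (Equiv.sum_comp (ix k d).equivFin.symm fun s => f s.1).symm

/-- the polynomial with given coefficients -/
def pol (k d : ℕ) (c : Fin (nix k d) → ℂ) : MvPolynomial (Fin (1 + 3)) ℂ :=
  ∑ i, MvPolynomial.monomial (mon k d i) (c i)

theorem pol_homog (k d : ℕ) (c : Fin (nix k d) → ℂ) : (pol k d c).IsHomogeneous k :=
  MvPolynomial.IsHomogeneous.sum _ _ _ fun i _ =>
    MvPolynomial.isHomogeneous_monomial _ (mem_ix.1 (mon_mem k d i)).1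

theorem coeff_pol (k d : ℕ) (c : Fin (nix k d) → ℂ) (i : Fin (nix k d)) :
    MvPolynomial.coeff (mon k d i) (pol k d c) = c i := by
  rw [pol, MvPolynomial.coeff_sum, Finset.sum_eq_single i]
  · simp
  · intro j _ hj
    rw [MvPolynomial.coeff_monomial, if_neg fun h => hj (mon_injective k d h)]
  · simp

theorem pol_support (k d : ℕ) (c : Fin (nix k d) → ℂ) :
    ∀ s ∈ (pol k d c).support, s (Fin.last 3) < d := by
  intro s hs
  rw [pol] at hs
  have h1 := MvPolynomial.support_sum hs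
  rw [Finset.mem_biUnion] at h1
  obtain ⟨i, -, hi⟩ := h1
  have h2 := MvPolynomial.support_monomial_subset hi
  rw [Finset.mem_singleton] at h2
  rw [h2]
  exact (mem_ix.1 (mon_mem k d i)).2

theorem eq_pol {k d : ℕ} {A : MvPolynomial (Fin (1 + 3)) ℂ} (hA : A.IsHomogeneous k)
    (hs : ∀ s ∈ A.support, s (Fin.last 3) < d) :
    A = pol k d fun i => MvPolynomial.coeff (mon k d i) A := by
  rw [pol, ← sum_mon fun s => MvPolynomial.monomial s (MvPolynomial.coeff s A)]
  conv_lhs => rw [← MvPolynomial.support_sum_monomial_coeff A]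
  refine Finset.sum_subset ?_ ?_
  · intro s hs'
    refine mem_ix.2 ⟨?_, hs s hs'⟩
    by_contra hne
    exact (MvPolynomial.mem_support_iff.1 hs') (hA.coeff_eq_zero hne)
  · intro s _ hs'
    rw [MvPolynomial.notMem_support_iff.1 hs', MvPolynomial.monomial_zero]

/-- evaluation, as a function of the parameter and the homogeneous coordinates -/
def Qm (A : MvPolynomial (Fin (1 + 3)) ℂ) (y : ℂ × VN (1 + 3)) : ℂ := MvPolynomial.eval y.2 A

theorem hpol_mulY {Ω : Set ℂ} {A : MvPolynomial (Fin (1 + 3)) ℂ} {k j N : ℕ}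
    (hA : A.IsHomogeneous k) (hkj : k + j = N) : HPol Ω (mulY (Qm A) j) N where
  an t _ z _ := by
    have h1 : AnalyticAt ℂ (fun x : VN (1 + 3) => MvPolynomial.eval x A) (ini z) :=
      (AnalyticOnNhd.eval_mvPolynomial (𝕜 := ℂ) A) _ (mem_univ _)
    have h2 : AnalyticAt ℂ (fun y : ℂ × VN (2 + 3) => ini y.2) (t, z) :=
      (ini.comp (ContinuousLinearMap.snd ℂ ℂ (VN (2 + 3)))).analyticAt _
    exact (AnalyticAt.comp (g := fun x : VN (1 + 3) => MvPolynomial.eval x A)
      (f := fun y : ℂ × VN (2 + 3) => ini y.2) h1 h2).mul ((analyticAt_lst _).pow j)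
  hom t _ c _ z := by
    show MvPolynomial.eval (ini (c • z)) A * lst (c • z) ^ j =
      c ^ N * (MvPolynomial.eval (ini z) A * lst z ^ j)
    rw [map_smul, map_smul, H845.eval_smul_homog hA, smul_eq_mul, mul_pow, ← hkj, pow_add]
    ring

/-! ### the frames -/

section frame

variable {Ω : Set ℂ} {d M : ℕ} {G H : ℂ × VN (1 + 3) → ℂ}

/-- the frame of the holomorphic 2-forms of character `ζ ^ (1 + j)` -/
def wfm (Ω : Set ℂ) (G H : ℂ × VN (1 + 3) → ℂ) (M j k d : ℕ) (i : Fin (nix k d)) :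
    PC (TZ Ω (gZ G H M)) → Cm 2 × ℂ → BF :=
  fm (cf (mulY (Qm (MvPolynomial.monomial (mon k d i) 1)) j))

theorem mulY_pol (k j : ℕ) (c : Fin (nix k d) → ℂ) :
    mulY (Qm (pol k d c)) j =
      fun y => ∑ i, c i * mulY (Qm (MvPolynomial.monomial (mon k d i) 1)) j y := by
  funext y
  simp only [mulY, Qm, pol, map_sum, Finset.sum_mul]
  refine Finset.sum_congr rfl fun i _ => ?_
  have h1 : MvPolynomial.monomial (mon k d i) (c i) =
      MvPolynomial.C (c i) * MvPolynomial.monomial (mon k d i) 1 := by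
    rw [MvPolynomial.C_mul_monomial, mul_one]
  rw [h1, map_mul, MvPolynomial.eval_C]
  ring

variable (h : CIF Ω (gZ G H M) ![d, M]) {j k N : ℕ} (hkj : k + j = N)
  (hN : N + (2 + 3) = ∑ k, ![d, M] k)

include hkj

theorem hpol_mon (i : Fin (nix k d)) :
    HPol Ω (mulY (Qm (MvPolynomial.monomial (mon k d i) 1)) j) N :=
  hpol_mulY (MvPolynomial.isHomogeneous_monomial _ (mem_ix.1 (mon_mem k d i)).1) hkj

include hN

theorem isHolCf_wfm (i : Fin (nix k d)) :
    IsHolCf h (cf (mulY (Qm (MvPolynomial.monomial (mon k d i) 1)) j)) :=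
  isHolCf_cf h (hpol_mon hkj i) hN

theorem isRF2_wfm (i : Fin (nix k d)) : IsRF2 (fam h rfl) (wfm Ω G H M j k d i) :=
  (isHolCf_wfm h hkj hN i).isRF2

theorem isCl2_wfm (i : Fin (nix k d)) : IsCl2 (fam h rfl) (wfm Ω G H M j k d i) :=
  (isHolCf_wfm h hkj hN i).isCl2

theorem char_wfm {ζ : ℂ} (hζ : ζ ≠ 0) (hM : ζ ^ M = 1) (i : Fin (nix k d)) :
    ∀ e ∈ (fam h rfl).A, ∀ q ∈ e.target, wfm Ω G H M j k d i e q =
      ζ ^ (1 + j) • wfm Ω G H M j k d i ((dk h hζ hM).transOpenPartialHomeomorph e) q := by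
  intro e he q hq
  have h1 := cf_mulY h hζ hM (hpol_mon hkj i) hN he hq
  simp only [wfm, fm]
  rw [smd_eq, smd_eq, h1, smul_smul]

include h in
/-- linear combinations of the frame -/
theorem sum_wfm (c : Fin (nix k d) → ℂ) {e : PC (TZ Ω (gZ G H M))} (he : IsPC e) {q : Cm 2 × ℂ}
    (hq : q ∈ e.target) : ∑ i, c i • wfm Ω G H M j k d i e q =
      cf (mulY (Qm (pol k d c)) j) e q • dzz := by
  rw [mulY_pol, cf_sum h hN Finset.univ c (fun i _ => hpol_mon hkj i) he hq, Finset.sum_smul]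
  refine Finset.sum_congr rfl fun i _ => ?_
  simp only [wfm, fm]
  rw [smd_eq, smul_smul]

/-- if a linear combination vanishes on the fibre over `t` then the polynomial vanishes on the
cone -/
theorem eval_eq_zero {t : ℂ} (ht : t ∈ Ω) (c : Fin (nix k d) → ℂ)
    (h0 : ∀ e ∈ (fam h rfl).A, ∀ w, (w, t) ∈ e.target →
      ∑ i, c i • wfm Ω G H M j k d i e (w, t) = 0) {x : VN (2 + 3)} (hx : x ∈ Kt (gZ G H M) t) :
    MvPolynomial.eval (ini x) (pol k d c) * lst x ^ j = 0 := by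
  obtain ⟨z, hz⟩ := exists_of_cone (Kt.cone ht hx)
  obtain ⟨e, he, hs⟩ := exists_pc h rfl z
  obtain ⟨a, ha⟩ := Function.ne_iff.mp hx.1
  have ha' : x a ≠ 0 := ha
  have hq := e.map_source hs
  have hq2 : e z = ((e z).1, t) := Prod.ext rfl ((he.par z hs).trans hz.2.1)
  have h1 := h0 e he (e z).1 (by rw [← hq2]; exact hq)
  rw [← hq2, sum_wfm h hkj hN c he hq] at h1
  have h2 : cf (mulY (Qm (pol k d c)) j) e (e z) = 0 := by
    have h3 := congrArg (fun b : BF => b (Pi.single 0 1) (Pi.single 1 1)) h1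
    have h4 : (cf (mulY (Qm (pol k d c)) j) e (e z) • dzz) (Pi.single 0 1) (Pi.single 1 1) =
        cf (mulY (Qm (pol k d c)) j) e (e z) := by
      rw [smul_apply, smul_apply, dzz_apply, smul_eq_mul]
      simp
    rw [← h4]
    exact h3
  have h5 := cf_prop h hN (hpol_mulY (Ω := Ω) (pol_homog k d c) hkj) (hpol_pw a N) he hs hz
  rw [h2, zero_mul] at h5
  exact (mul_eq_zero.1 h5.symm).resolve_left (cf_pw_ne h hN he hs hz ha')

/-- the holomorphic forms of polynomial type are in the span of the frame -/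
theorem span_wfm {t : ℂ} {hh : Chart 2 ((fam h rfl).Fib t) → Cm 2 → ℂ}
    {A : MvPolynomial (Fin (1 + 3)) ℂ} (hA : A.IsHomogeneous k)
    (hs : ∀ s ∈ A.support, s (Fin.last 3) < d)
    (hhA : ∀ φ e, IsFC (fam h rfl) t φ e → ∀ w ∈ φ.target,
      hh φ w = cf (mulY (Qm A) j) e (w, t)) :
    ∃ c : Fin (nix k d) → ℂ, ∀ φ ∈ atlas (Cm 2) ((fam h rfl).Fib t), ∀ w ∈ φ.target,
      hh φ w • dzz = ∑ i, c i • res (fam h rfl) t (wfm Ω G H M j k d i) φ w := by
  refine ⟨fun i => MvPolynomial.coeff (mon k d i) A, ?_⟩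
  rintro φ ⟨e, he⟩ w hw
  have h1 : ∀ i, res (fam h rfl) t (wfm Ω G H M j k d i) φ w = wfm Ω G H M j k d i e (w, t) :=
    fun i => rf2_res_eq (isRF2_wfm h hkj hN i) he hw
  simp only [h1]
  rw [sum_wfm h hkj hN _ he.mem (he.mem_target hw), ← eq_pol hA hs, hhA φ e he w hw]

end frame

end Vale.Agent.P298.H723
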