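import Vale.Agent.P298.H723.Deck

/-!
# P298, S1-GEO-R3: Hodge index on one fibre

`hodge_index_deck`: on a compact connected Kähler surface with a cyclic group of deck
transformations, the intersection form is `≤ 0` on the closed two-forms of character `χ ≠ 1` which
are orthogonal to the holomorphic two-forms of character `χ` and to the conjugates of those of
character `conj χ`.
-/

set_option linter.unusedSectionVars false
set_option maxSynthPendingDepth 3

open scoped Manifold ContDiff ComplexConjugate Matrix ComplexOrder Topology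
open MeasureTheory Set

noncomputable section

namespace Vale.Agent.P298.H723

open Vale.Agent Vale.Agent.P267.FL Vale.Agent.P298.H39
open Vale.Agent.P267.H469 (cj0 cj1 cj11 cjF r0cj' wedge_mem)
open Vale.Agent.P267.BlockC (pair)

variable {Z : Type} [TopologicalSpace Z] [ChartedSpace C2 Z] [IsManifold 𝓘(ℂ, C2) ω Z]
  [T2Space Z] [CompactSpace Z] {σ : Z ≃ₜ Z} {α : Ch Z → C2 → BF}

theorem isHol2_loc0 {η : Z → ℂ} (h1 : Reg0 ∞ 1 η) (h2 : dbar0 1 η = 0) :
    IsHol2 fun e q => loc0 1 e η q where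
  hol e he := P267.H682.differentiableOn_loc0 h1 h2 he
  change e he e' he' x hx hx' := by
    rw [loc0_change (κ := 1) he he' hx hx' η, zpow_one, smul_eq_mul, P267.H661.jacM_eq']

section avg

variable (hσ : ∀ e ∈ atlas C2 Z, σ.transOpenPartialHomeomorph e ∈ atlas C2 Z)

include hσ in
/-- integrals of densities built from the character components -/
theorem cI_avg {D : Ch Z → C2 → ℂ} (hD : IsDC D) (m : ℕ) :
    cI (fun e q => ∑ k ∈ Finset.range m, D ((TC σ)^[k] e) q) = m * cI D := by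
  rw [cI_sum (Finset.range m) fun k _ => hD.iter hσ k]
  simp only [cI_iter hσ hD]
  simp

include hσ in
theorem orth20 {m : ℕ} (hm : 0 < m) (hσm : ∀ x, σ^[m] x = x) {χ : ℂ} (hχ : χ ^ m = 1)
    (hα : IsF2 α) (hαχ : ∀ e ∈ atlas C2 Z, ∀ q ∈ e.target, α e q = χ • α (TC σ e) q)
    (h20 : ∀ h : Ch Z → C2 → ℂ, IsHol2 h →
      (∀ e ∈ atlas C2 Z, ∀ q ∈ e.target, h e q = χ * h (TC σ e) q) →
      cI (fun e q => prh (α e q) (h e q • dzz)) = 0)
    {η : Z → ℂ} (h1 : Reg0 ∞ 1 η) (h2 : dbar0 1 η = 0) :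
    intX (fun x => (toF α).f20 x * conj (η x)) = 0 := by
  have hb : Reg2 ∞ 1 fun x => (toF α).f20 x * conj (η x) :=
    reg2_mul (b := cj0 η) (r0cj' h1) (smooth_toF hα).s20
  set D : Ch Z → C2 → ℂ :=
    fun e q => 4 * loc2 1 e (fun x => (toF α).f20 x * conj (η x)) q with hD
  have hDd : IsDC D := isDC_loc2 hb
  have hDe : ∀ e ∈ atlas C2 Z, ∀ q ∈ e.target, D e q = 4 * (cA (α e q) * conj (loc0 1 e η q)) := by
    intro e he q hq
    rw [hD, ← loc0_toF hα he hq]
    simp only [loc0, loc2, smul_eq_mul, zpow_one, map_mul]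
    ring
  rw [intX_eq_cI hb]
  change cI D = 0
  have h3 := h20 (hav σ m χ fun e q => loc0 1 e η q) (isHol2_hav hσ χ (isHol2_loc0 h1 h2))
    fun e _ q _ => hav_char hσm hχ _ e q
  have h4 : cI (fun e q => prh (α e q) (hav σ m χ (fun e q => loc0 1 e η q) e q • dzz)) =
      cI (fun e q => ∑ k ∈ Finset.range m, D ((TC σ)^[k] e) q) := by
    refine cI_congr fun e he q hq => ?_
    rw [prh_dzz (hα.alt e he q hq), hav, map_sum, Finset.mul_sum, Finset.mul_sum]
    refine Finset.sum_congr rfl fun k _ => ?_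
    rw [hDe _ (iter_mem hσ he k) q (by rw [iter_target]; exact hq),
      char_iter hσ hαχ k e he q hq, cA_smul, map_mul, map_pow]
    have h5 : χ ^ k * conj χ ^ k = 1 := by
      rw [← mul_pow, mul_comm, root_conj hm hχ, one_pow]
    linear_combination (4 * cA (α ((TC σ)^[k] e) q) * conj (loc0 1 ((TC σ)^[k] e) η q)) * h5
  rw [h4, cI_avg hσ hDd] at h3
  have hm' : (m : ℂ) ≠ 0 := by exact_mod_cast hm.ne'
  exact (mul_eq_zero.1 h3).resolve_left hm'

include hσ in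
theorem orth02 {m : ℕ} (hm : 0 < m) (hσm : ∀ x, σ^[m] x = x) {χ : ℂ} (hχ : χ ^ m = 1)
    (hα : IsF2 α) (hαχ : ∀ e ∈ atlas C2 Z, ∀ q ∈ e.target, α e q = χ • α (TC σ e) q)
    (h02 : ∀ h : Ch Z → C2 → ℂ, IsHol2 h →
      (∀ e ∈ atlas C2 Z, ∀ q ∈ e.target, h e q = conj χ * h (TC σ e) q) →
      cI (fun e q => prh (α e q) (cjB (h e q • dzz))) = 0)
    {η : Z → ℂ} (h1 : Reg0 ∞ 1 η) (h2 : dbar0 1 η = 0) :
    intX (fun x => η x * (toF α).f02 x) = 0 := by
  have hb : Reg2 ∞ 1 fun x => η x * (toF α).f02 x := reg2_mul (smooth_toF hα).s02 h1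
  set D : Ch Z → C2 → ℂ :=
    fun e q => 4 * loc2 1 e (fun x => η x * (toF α).f02 x) q with hD
  have hDd : IsDC D := isDC_loc2 hb
  have hDe : ∀ e ∈ atlas C2 Z, ∀ q ∈ e.target, D e q = 4 * (cC (α e q) * loc0 1 e η q) := by
    intro e he q hq
    rw [hD]
    simp only [loc2_mul, loc2_toF hα he hq]
  rw [intX_eq_cI hb]
  change cI D = 0
  have hχ' : conj χ ^ m = 1 := by rw [← map_pow, hχ, map_one]
  have h3 := h02 (hav σ m (conj χ) fun e q => loc0 1 e η q)
    (isHol2_hav hσ (conj χ) (isHol2_loc0 h1 h2)) fun e _ q _ => hav_char hσm hχ' _ e q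
  have h4 : cI (fun e q => prh (α e q)
      (cjB (hav σ m (conj χ) (fun e q => loc0 1 e η q) e q • dzz))) =
      cI (fun e q => ∑ k ∈ Finset.range m, D ((TC σ)^[k] e) q) := by
    refine cI_congr fun e he q hq => ?_
    rw [prh_cj_dzz (hα.alt e he q hq), hav, Finset.mul_sum, Finset.mul_sum]
    refine Finset.sum_congr rfl fun k _ => ?_
    rw [hDe _ (iter_mem hσ he k) q (by rw [iter_target]; exact hq),
      char_iter hσ hαχ k e he q hq, cC_smul]
    have h5 : χ ^ k * conj χ ^ k = 1 := by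
      rw [← mul_pow, mul_comm, root_conj hm hχ, one_pow]
    linear_combination (4 * cC (α ((TC σ)^[k] e) q) * loc0 1 ((TC σ)^[k] e) η q) * h5
  rw [h4, cI_avg hσ hDd] at h3
  have hm' : (m : ℂ) ≠ 0 := by exact_mod_cast hm.ne'
  exact (mul_eq_zero.1 h3).resolve_left hm'

include hσ in
theorem orth11 {w : Ch Z → C2 → Matrix (Fin 2) (Fin 2) ℂ} (hw : P272.K.IsKahler w)
    (hwσ : ∀ e q, w (TC σ e) q = w e q) {χ : ℂ} (hχ1 : χ ≠ 1)
    (hα : IsF2 α) (hαχ : ∀ e ∈ atlas C2 Z, ∀ q ∈ e.target, α e q = χ • α (TC σ e) q) :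
    intX ((toF α).wedge (kf (wF w))) = 0 := by
  have hk : (kf (wF w)).Smooth :=
    ⟨(P267.H469.S20 Z).zero_mem, (isHerm_wF hw).smooth, (P267.H469.S02 Z).zero_mem⟩
  have hb : Reg2 ∞ 1 ((toF α).wedge (kf (wF w))) := wedge_mem (smooth_toF hα) hk
  set D : Ch Z → C2 → ℂ := fun e q => 4 * loc2 1 e ((toF α).wedge (kf (wF w))) q with hD
  have hDd : IsDC D := isDC_loc2 hb
  have hz0 : ∀ (e : Ch Z) (q : C2), loc0 1 e (kf (wF w)).f20 q = 0 := by
    intro e q
    simp [loc0, kf]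
  have hz2 : ∀ (e : Ch Z) (q : C2), loc2 0 e (kf (wF w)).f02 q = 0 := by
    intro e q
    simp [loc2, kf]
  have hDe : ∀ e ∈ atlas C2 Z, ∀ q ∈ e.target, D e q =
      -4 * (cB 0 0 (α e q) * w e q 1 1 + cB 1 1 (α e q) * w e q 0 0 -
        cB 0 1 (α e q) * w e q 1 0 - cB 1 0 (α e q) * w e q 0 1) := by
    intro e he q hq
    rw [hD]
    simp only [P267.H469.loc2_wedge, hz0, hz2, loc11_toF hα he hq]
    have h1 : loc11 e (kf (wF w)).f11 q = w e q := loc11_wF hw he hq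
    rw [h1]
    ring
  rw [intX_eq_cI hb]
  change cI D = 0
  have h1 : cI D = cI fun e q => χ * D (TC σ e) q := by
    refine cI_congr fun e he q hq => ?_
    have h5 : D (TC σ e) q = -4 * (cB 0 0 (α (TC σ e) q) * w e q 1 1 +
        cB 1 1 (α (TC σ e) q) * w e q 0 0 -
        cB 0 1 (α (TC σ e) q) * w e q 1 0 - cB 1 0 (α (TC σ e) q) * w e q 0 1) := by
      rw [← hwσ e q]
      exact hDe _ (hσ e he) q hq
    rw [hDe e he q hq, h5, hαχ e he q hq]
    simp only [cB_smul]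
    ring
  rw [cI_const_mul (hDd.TC hσ) χ, cI_TC hσ hDd] at h1
  have h2 : (1 - χ) * cI D = 0 := by linear_combination h1
  rcases mul_eq_zero.1 h2 with h3 | h3
  · exact absurd (sub_eq_zero.1 h3).symm hχ1
  · exact h3

end avg

/-- **Hodge index on one fibre.** -/
theorem hodge_index_deck [ConnectedSpace Z] {w : Ch Z → C2 → Matrix (Fin 2) (Fin 2) ℂ}
    (hw : P272.K.IsKahler w) (σ : Z ≃ₜ Z)
    (hσ : ∀ e ∈ atlas C2 Z, σ.transOpenPartialHomeomorph e ∈ atlas C2 Z) {m : ℕ} (hm : 0 < m)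
    (hσm : ∀ x, σ^[m] x = x) {χ : ℂ} (hχ : χ ^ m = 1) (hχ1 : χ ≠ 1) {α : Ch Z → C2 → BF}
    (hα : IsF2 α) (hc : IsC2 α)
    (hαχ : ∀ e ∈ atlas C2 Z, ∀ q ∈ e.target, α e q = χ • α (σ.transOpenPartialHomeomorph e) q)
    (h20 : ∀ h : Ch Z → C2 → ℂ, IsHol2 h →
      (∀ e ∈ atlas C2 Z, ∀ q ∈ e.target, h e q = χ * h (σ.transOpenPartialHomeomorph e) q) →
      cI (fun e q => prh (α e q) (h e q • dzz)) = 0)
    (h02 : ∀ h : Ch Z → C2 → ℂ, IsHol2 h →
      (∀ e ∈ atlas C2 Z, ∀ q ∈ e.target,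
        h e q = conj χ * h (σ.transOpenPartialHomeomorph e) q) →
      cI (fun e q => prh (α e q) (cjB (h e q • dzz))) = 0) :
    (cI fun e q => prh (α e q) (α e q)).re ≤ 0 := by
  have hw' := kahler_wav hσ hw hm
  have h11 : pair (toF α) (kf (wF (wav σ m w))) = 0 :=
    orth11 hσ hw' (wav_TC hσm) hχ1 hα hαχ
  have h1 := hodge_index_FL (isHerm_wF hw') (closed_wF hw') (smooth_toF hα) (closed_toF hα hc)
    (fun η a b => orth20 hσ hm hσm hχ hα hαχ h20 a b)
    (fun η a b => orth02 hσ hm hσm hχ hα hαχ h02 a b) h11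
  have h2 : pair (toF α) (cjF (toF α)) = cI fun e q => prh (α e q) (α e q) := by
    rw [pair, intX_eq_cI (wedge_mem (smooth_toF hα) (smooth_cjF (smooth_toF hα)))]
    exact cI_congr fun e he q hq => loc2_wedge_cj hα hα he hq
  rwa [h2] at h1

end Vale.Agent.P298.H723
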